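import Vale.Agent.P297.H160.Z2Gen
import Vale.Agent.P297.H72.Z2.TDefs
import Vale.Agent.P297.H521.Z3Spec

/-!
General numerical Godeaux surfaces with torsion of order two: more on the generic points;
equivariance for all points, specialisations of points.
-/

set_option linter.unusedSectionVars false
set_option linter.style.haveILetI false

open IntermediateField

namespace Vale.Agent.P297.H721.Z2

open Vale.Agent.P297 Vale.Agent.P297.H160.Z2Irr Vale.Agent.P297.H72 Vale.Agent.P297.H637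
open Vale.Agent.P297.H521 (val_alg val_ofNat)

section maps

variable {K N N' : Type} [Field K] [Algebra ℂ K] [Field N] [Algebra ℂ N] [Field N'] [Algebra ℂ N']
  {P : Par} {x : Fin 5 → K}

theorem GenS.of_phi (hx : H160.Z2Irr.IsFF P x) (φ : K →ₐ[ℂ] N) : GenS P (fun j => φ (x j)) :=
  hx.genS.map φ

/-- An extension of fields reflects generic points. -/
theorem GenS.of_map {w : Fin 5 → N} (σ : N →ₐ[ℂ] N') (h : GenS P (fun j => σ (w j))) :
    GenS P w where
  e1 := by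
    have h1 := h.e1
    unfold E1 at h1 ⊢
    apply σ.toRingHom.injective
    change σ _ = σ _
    simpa only [map_add, map_sub, map_mul, map_pow, map_fU, map_fV, map_fa, map_fc] using h1
  e2 := by
    have h1 := h.e2
    unfold E2 at h1 ⊢
    apply σ.toRingHom.injective
    change σ _ = σ _
    simpa only [map_add, map_sub, map_mul, map_pow, map_div₀, map_one, map_fU, map_fV, map_fe,
      AlgHom.commutes] using h1
  e3 := by
    have h1 := h.e3
    unfold E3 at h1 ⊢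
    apply σ.toRingHom.injective
    change σ _ = σ _
    simpa only [map_add, map_sub, map_mul, map_pow, map_div₀, map_ofNat, map_fU, map_fV, map_fa,
      map_fc, map_fm, AlgHom.commutes] using h1
  nx := by
    intro h0
    apply h.nx
    rw [h0, map_zero]
  nU := by
    intro h0
    apply h.nU
    rw [← map_fU P σ, h0, map_zero]
  nV := by
    intro h0
    apply h.nV
    rw [← map_fV P σ, h0, map_zero]
  nD := by
    intro h0
    apply h.nD
    rw [← map_fD P σ, h0, map_zero]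
  ind := by
    obtain ⟨i, j, hij⟩ := h.ind
    refine ⟨i, j, AlgebraicIndependent.of_comp σ ?_⟩
    have h1 : (σ ∘ ![w i, w j]) = ![σ (w i), σ (w j)] := by
      funext k
      fin_cases k <;> rfl
    rw [h1]
    exact hij

theorem pt_of_not (hx : H160.Z2Irr.IsFF P x) {w : Fin 5 → N} (h : ¬ GenS P w) :
    H160.Z2Irr.pt x w = 0 := by
  unfold H160.Z2Irr.pt
  rw [dif_neg]
  rintro ⟨φ, hφ⟩
  apply h
  have h1 : w = fun j => φ (x j) := funext fun j => (hφ j).symm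
  rw [h1]
  exact GenS.of_phi hx φ

/-- The point in terms of `exists_phi`. -/
theorem GenS.exists_pt (hx : H160.Z2Irr.IsFF P x) {w : Fin 5 → N} (hw : GenS P w) :
    ∃ φ : K →ₐ[ℂ] N, (∀ j, φ (x j) = w j) ∧ H160.Z2Irr.pt x w = Finsupp.single φ 1 := by
  obtain ⟨φ, hφ⟩ := hw.exists_phi hx
  exact ⟨φ, hφ, pt_eq hx hφ⟩

/-- Change of the field of values, for all points. -/
theorem map_pt_all (hx : H160.Z2Irr.IsFF P x) (w : Fin 5 → N) (σ : N →ₐ[ℂ] N') :
    Finsupp.mapDomain (fun φ : K →ₐ[ℂ] N => σ.comp φ) (H160.Z2Irr.pt x w) =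
      H160.Z2Irr.pt x (fun j => σ (w j)) := by
  by_cases ho : GenS P w
  · exact map_pt hx ho σ
  · rw [pt_of_not hx ho, Finsupp.mapDomain_zero, pt_of_not hx fun h => ho (GenS.of_map σ h)]

end maps

section spec

variable {K N N₁ : Type} [Field K] [Algebra ℂ K] [Field N] [Algebra ℂ N] [Field N₁] [Algebra ℂ N₁]
  [Algebra N N₁] [IsScalarTower ℂ N N₁] {V : Plc N N₁} {P : Par} {x : Fin 5 → K}

theorem val_two' : V.Val (2 : N₁) (2 : N) := by
  have h := val_ofNat (V := V) 2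
  exact_mod_cast h

theorem val_four' : V.Val (4 : N₁) (4 : N) := by
  have h := val_ofNat (V := V) 4
  exact_mod_cast h

theorem val_fU {y₁ : N₁} {y : N} (h : V.Val y₁ y) : V.Val (fU P y₁) (fU P y) := h.add (val_alg _)

theorem val_fV {y₁ : N₁} {y : N} (h : V.Val y₁ y) : V.Val (fV P y₁) (fV P y) := h.add (val_alg _)

theorem val_fa {y₁ : N₁} {y : N} (h : V.Val y₁ y) : V.Val (fa P y₁) (fa P y) :=
  (val_two'.mul h).add (val_alg _)

theorem val_fc {y₁ : N₁} {y : N} (h : V.Val y₁ y) : V.Val (fc P y₁) (fc P y) :=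
  (val_two'.mul h).add (val_alg _)

theorem val_fe {y₁ : N₁} {y : N} (h : V.Val y₁ y) : V.Val (fe P y₁) (fe P y) :=
  ((val_alg _).sub (h.pow 2)).add ((val_alg _).mul h)

theorem val_fm {y₁ : N₁} {y : N} (h : V.Val y₁ y) : V.Val (fm P y₁) (fm P y) :=
  ((val_alg _).sub (h.pow 2)).add ((val_alg _).mul h)

theorem val_fD {x₁ k₁ y₁ : N₁} {x' k y : N} (hx : V.Val x₁ x') (hk : V.Val k₁ k)
    (hy : V.Val y₁ y) : V.Val (fD P x₁ k₁ y₁) (fD P x' k y) :=
  (((hk.mul (hk.sub V.val_one)).mul hx).add ((val_fU hy).pow 2)).sub (hk.mul ((val_fV hy).pow 2))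

/-- **Generic points lift to generic points.** -/
theorem genS_of_val {w₁ : Fin 5 → N₁} {w : Fin 5 → N} (hv : ∀ j, V.Val (w₁ j) (w j))
    (hw : GenS P w) (h1 : E1 P (w₁ 0) (w₁ 1) (w₁ 2) (w₁ 3) (w₁ 4))
    (h2 : E2 P (w₁ 0) (w₁ 1) (w₁ 2) (w₁ 3) (w₁ 4))
    (h3 : E3 P (w₁ 0) (w₁ 1) (w₁ 2) (w₁ 3) (w₁ 4)) : GenS P w₁ := by
  refine ⟨h1, h2, h3, (hv 0).ne_zero hw.nx, (val_fU (hv 2)).ne_zero hw.nU,
    (val_fV (hv 2)).ne_zero hw.nV, (val_fD (hv 0) (hv 1) (hv 2)).ne_zero hw.nD, ?_⟩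
  obtain ⟨i, j, hij⟩ := hw.ind
  refine ⟨i, j, ?_⟩
  rw [algebraicIndependent_iff] at hij ⊢
  intro f hf
  apply hij
  have h1 : ∀ k, V.Val ((![w₁ i, w₁ j] : Fin 2 → N₁) k) ((![w i, w j] : Fin 2 → N) k) := by
    intro k
    fin_cases k
    · exact hv i
    · exact hv j
  have h2 : ∀ f : MvPolynomial (Fin 2) ℂ,
      V.Val (MvPolynomial.aeval (![w₁ i, w₁ j] : Fin 2 → N₁) f)
        (MvPolynomial.aeval (![w i, w j] : Fin 2 → N) f) := by
    intro f
    induction f using MvPolynomial.induction_on with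
    | C a =>
      rw [MvPolynomial.aeval_C, MvPolynomial.aeval_C]
      exact val_alg _
    | add p q hp hq => rw [map_add, map_add]; exact hp.add hq
    | mul_X p k hp =>
      rw [map_mul, map_mul, MvPolynomial.aeval_X, MvPolynomial.aeval_X]
      exact hp.mul (h1 k)
  have h3 := h2 f
  rw [hf] at h3
  exact h3.unique V.val_zero

/-- **The specialisation of a point of the surface.** -/
theorem specC_pt (hx : H160.Z2Irr.IsFF P x) {w₁ : Fin 5 → N₁} {w : Fin 5 → N}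
    (h1 : E1 P (w₁ 0) (w₁ 1) (w₁ 2) (w₁ 3) (w₁ 4)) (h2 : E2 P (w₁ 0) (w₁ 1) (w₁ 2) (w₁ 3) (w₁ 4))
    (h3 : E3 P (w₁ 0) (w₁ 1) (w₁ 2) (w₁ 3) (w₁ 4)) (hv : ∀ j, V.Val (w₁ j) (w j))
    (hw : GenS P w) : (H160.Z2Irr.pt x w₁, H160.Z2Irr.pt x w) ∈ SpecC K V := by
  obtain ⟨φ, hφ, hp⟩ := GenS.exists_pt hx hw
  obtain ⟨φ₁, hφ₁, hp₁⟩ := GenS.exists_pt hx (genS_of_val hv hw h1 h2 h3)
  rw [hp, hp₁]
  refine SpecC.single_of_gens hx.top ?_
  rintro _ ⟨j, rfl⟩
  rw [hφ, hφ₁]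
  exact hv j

end spec

section toS

open Vale.Agent.P297.Z2

variable {K N N₁ : Type} [Field K] [Algebra ℂ K] [Field N] [Algebra ℂ N] [Field N₁] [Algebra ℂ N₁]
  [Algebra N N₁] [IsScalarTower ℂ N N₁] {V : Plc N N₁} {P : Par} {x : Fin 5 → K}
  {l₁ p₁ r₁ y₁ S₁ : N₁} {l p r y S : N}

theorem val_N (hp : V.Val p₁ p) (hr : V.Val r₁ r) :
    V.Val ((dat P y₁).N p₁ r₁) ((dat P y).N p r) := (hp.mul hr).sub ((val_alg _).mul (val_alg _))

theorem val_E (hp : V.Val p₁ p) (hy : V.Val y₁ y) : V.Val ((dat P y₁).E p₁) ((dat P y).E p) :=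
  ((val_fV hy).mul hp).add ((val_alg _).mul (val_fU hy))

theorem val_F (hr : V.Val r₁ r) (hy : V.Val y₁ y) : V.Val ((dat P y₁).F r₁) ((dat P y).F r) :=
  ((val_fU hy).mul hr).add ((val_alg _).mul (val_fV hy))

theorem val_J0 (hp : V.Val p₁ p) (hr : V.Val r₁ r) (hy : V.Val y₁ y) :
    V.Val ((dat P y₁).J0 p₁ r₁) ((dat P y).J0 p r) :=
  ((((hp.add hr).pow 2).add ((val_fa hy).mul hp)).add ((val_fc hy).mul hr)).sub (val_fm hy)

theorem val_J1 (hp : V.Val p₁ p) (hr : V.Val r₁ r) (hy : V.Val y₁ y) :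
    V.Val ((dat P y₁).J1 p₁ r₁) ((dat P y).J1 p r) :=
  (((val_fU hy).mul hp).add ((val_fV hy).mul hr)).sub (val_fe hy)

theorem val_K (hl : V.Val l₁ l) (hp : V.Val p₁ p) (hr : V.Val r₁ r) (hy : V.Val y₁ y) :
    V.Val ((dat P y₁).K l₁ p₁ r₁) ((dat P y).K l p r) :=
  ((val_J0 hp hr hy).sub (hl.mul (val_J1 hp hr hy))).sub (val_two'.mul (val_N hp hr))

theorem val_g (hy : V.Val y₁ y) : V.Val ((dat P y₁).g) ((dat P y).g) :=
  ((((val_fU hy).mul (val_fV hy)).mul (val_fe hy)).add ((val_alg _).mul ((val_fV hy).pow 3))).add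
    ((val_alg _).mul ((val_fU hy).pow 3))

theorem val_h (hl : V.Val l₁ l) (hy : V.Val y₁ y) : V.Val ((dat P y₁).h l₁) ((dat P y).h l) := by
  have hU := val_fU (P := P) hy
  have hV := val_fV (P := P) hy
  exact (((((((val_alg _).mul (hU.pow 2)).add ((val_alg _).mul (hV.pow 2))).pow 2).sub
    ((((val_fa hy).mul (val_alg _)).mul (hU.pow 3)).mul hV)).sub
    ((((val_fc hy).mul (val_alg _)).mul (hV.pow 3)).mul hU)).sub
    (((val_fm hy).mul (hU.pow 2)).mul (hV.pow 2))).add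
    (((hl.mul hU).mul hV).mul (val_g hy))

theorem val_sN (hl : V.Val l₁ l) (hp : V.Val p₁ p) (hr : V.Val r₁ r) (hy : V.Val y₁ y)
    (hS : V.Val S₁ S) : V.Val ((dat P y₁).sN l₁ p₁ r₁ S₁) ((dat P y).sN l p r S) := by
  have hU := val_fU (P := P) hy
  have hV := val_fV (P := P) hy
  exact (((hU.pow 2).mul ((val_K hl hp hr hy).add hS)).neg).add
    ((val_two'.mul (((hr.sub (hl.mul hV)).mul hU).sub ((val_alg _).mul hV))).mul (val_F hr hy))

theorem val_tN (hl : V.Val l₁ l) (hp : V.Val p₁ p) (hr : V.Val r₁ r) (hy : V.Val y₁ y)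
    (hS : V.Val S₁ S) : V.Val ((dat P y₁).tN l₁ p₁ r₁ S₁) ((dat P y).tN l p r S) := by
  have hU := val_fU (P := P) hy
  have hV := val_fV (P := P) hy
  exact ((hV.pow 2).mul ((val_K hl hp hr hy).sub hS)).sub
    ((val_two'.mul (((hp.sub (hl.mul hU)).mul hV).sub ((val_alg _).mul hU))).mul (val_E hp hy))

theorem val_Kc (hl : V.Val l₁ l) (hp : V.Val p₁ p) (hr : V.Val r₁ r) (hy : V.Val y₁ y)
    (hS : V.Val S₁ S) : V.Val ((dat P y₁).Kc l₁ p₁ r₁ S₁) ((dat P y).Kc l p r S) :=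
  ((val_tN hl hp hr hy hS).mul ((val_F hr hy).pow 2)).sub
    ((val_sN hl hp hr hy hS).mul ((val_E hp hy).pow 2))

/-- The specialisation of the coordinates of the surface. -/
theorem val_toS (hl : V.Val l₁ l) (hp : V.Val p₁ p) (hr : V.Val r₁ r) (hy : V.Val y₁ y)
    (hS : V.Val S₁ S) (hU : fU P y ≠ 0) (hV : fV P y ≠ 0) (hE : (dat P y).E p ≠ 0)
    (hK : (dat P y).Kc l p r S ≠ 0) (j : Fin 5) :
    V.Val (toS P l₁ p₁ r₁ y₁ S₁ j) (toS P l p r y S j) := by
  have : CharZero N := charZero_of_injective_algebraMap (algebraMap ℂ N).injective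
  have h2 : (2 : N) ≠ 0 := two_ne_zero
  have hd : V.Val (2 * fU P y₁ * fV P y₁ * (dat P y₁).E p₁) (2 * fU P y * fV P y * (dat P y).E p) :=
    ((val_two'.mul (val_fU hy)).mul (val_fV hy)).mul (val_E hp hy)
  have hd0 : 2 * fU P y * fV P y * (dat P y).E p ≠ 0 :=
    mul_ne_zero (mul_ne_zero (mul_ne_zero h2 hU) hV) hE
  fin_cases j
  · exact (((val_two'.mul ((val_E hp hy).pow 2)).mul (val_h hl hy)).neg).div
      (val_Kc hl hp hr hy hS) hK
  · exact (val_F hr hy).div (val_E hp hy) hE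
  · exact hy
  · exact (val_sN hl hp hr hy hS).div hd hd0
  · exact (val_tN hl hp hr hy hS).div hd hd0

/-- **The specialisation of the points of the double solid on the surface.** -/
theorem spec_toS (hx : H160.Z2Irr.IsFF P x) (hl : V.Val l₁ l) (hp : V.Val p₁ p) (hr : V.Val r₁ r)
    (hy : V.Val y₁ y) (hS : V.Val S₁ S) (hB : S₁ ^ 2 = tB P l₁ p₁ r₁ y₁)
    (hΦ : tPhi P l₁ p₁ r₁ y₁ S₁ = 0) (hE : (dat P y).E p ≠ 0)
    (hh : (dat P y).h l ≠ 0) (hK : (dat P y).Kc l p r S ≠ 0) (hg : GenS P (toS P l p r y S)) :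
    (H160.Z2Irr.pt x (toS P l₁ p₁ r₁ y₁ S₁), H160.Z2Irr.pt x (toS P l p r y S)) ∈
      SpecC K V := by
  have : CharZero N₁ := charZero_of_injective_algebraMap (algebraMap ℂ N₁).injective
  have hU : fU P y ≠ 0 := hg.nU
  have hV : fV P y ≠ 0 := hg.nV
  have kU : fU P y₁ ≠ 0 := (val_fU hy).ne_zero hU
  have kV : fV P y₁ ≠ 0 := (val_fV hy).ne_zero hV
  have kE := (val_E (P := P) hp hy).ne_zero hE
  have kK := (val_Kc (P := P) hl hp hr hy hS).ne_zero hK
  have kh := (val_h (P := P) hl hy).ne_zero hh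
  exact specC_pt hx (toS_E1 kU kV kE kK) (toS_E2 kU kV kE kK hΦ) (toS_E3 kU kV kE kK kh hB hΦ)
    (fun j => val_toS hl hp hr hy hS hU hV hE hK j) hg

/-- the image of a point of the double solid -/
theorem map_toS {N' : Type} [Field N'] [Algebra ℂ N'] (f : N →ₐ[ℂ] N') (l p r y S : N)
    (j : Fin 5) : f (toS P l p r y S j) = toS P (f l) (f p) (f r) (f y) (f S) j := by
  have hd : ∀ z : N, (dat P z).map f = dat P (f z) := map_dat P f
  unfold toS
  rw [← hd]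
  fin_cases j
  · change f ((dat P y).X l p r S) = ((dat P y).map f).X (f l) (f p) (f r) (f S)
    simp only [Dat.X, Dat.h, Dat.g, Dat.Kc, Dat.sN, Dat.tN, Dat.K, Dat.J0, Dat.J1, Dat.N, Dat.E,
      Dat.F, Dat.map, map_div₀, map_neg, map_add, map_sub, map_mul, map_pow, map_ofNat]
  · change f ((dat P y).kap p r) = ((dat P y).map f).kap (f p) (f r)
    simp only [Dat.kap, Dat.E, Dat.F, Dat.map, map_div₀, map_add, map_mul]
  · rfl
  · change f ((dat P y).sg l p r S) = ((dat P y).map f).sg (f l) (f p) (f r) (f S)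
    simp only [Dat.sg, Dat.sN, Dat.K, Dat.J0, Dat.J1, Dat.N, Dat.E,
      Dat.F, Dat.map, map_div₀, map_neg, map_add, map_sub, map_mul, map_pow, map_ofNat]
  · change f ((dat P y).ta l p r S) = ((dat P y).map f).ta (f l) (f p) (f r) (f S)
    simp only [Dat.ta, Dat.tN, Dat.K, Dat.J0, Dat.J1, Dat.N, Dat.E, Dat.map, map_div₀, map_add, map_sub, map_mul, map_pow, map_ofNat]

end toS

end Vale.Agent.P297.H721.Z2
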