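import Vale.Agent.P297.H721.Z2.Nondeg
import Vale.Agent.P297.H871.Z2.Z0b

/-!
**[PT9]** General numerical Godeaux surfaces with torsion of order two: the points of the surface
on the general line through a node are good.
-/

set_option linter.unusedSectionVars false

namespace Vale.Agent.P297.H721.G9

open Vale.Agent.P297 Vale.Agent.P297.H160.Z2Irr Vale.Agent.P297.Z2 Vale.Agent.P297.H55Z

/-- **The points of the surface on the general line through a node are good.** -/
theorem good9 {N : Type} [Field N] [Algebra ℂ N] [IsAlgClosed N] {P : Par} (hc : NC P)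
    (hM1 : P.M1 = 0) (hQ0 : P.Q0 ≠ 0) (hQ1 : P.Q1 ≠ 0) (huv : P.u ≠ P.v)
    (hve : (P.u - P.v) * (P.Q0 - 2 * P.v) + P.n - P.v ^ 2 - P.P1 * P.v ≠ 0)
    (hgh : ∀ z : ℂ, (dat P z).h 0 = 0 → (dat P z).g ≠ 0) : Good9 P N :=
  good9_of (fun _ _ _ _ _ _ _ _ _ hW hB hne hΦ =>
    H871.Z2.Z0b hc.P0 hc.P2 hQ1 huv hM1 hve hgh hW hB hne hΦ) hc hM1 hQ0 hQ1

end Vale.Agent.P297.H721.G9
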