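import Vale.Agent.P297.H721.Z2.Lim

/-!
General numerical Godeaux surfaces with torsion of order two: closed subfields with the coordinates
of a point, and the values of the letters of a node.
-/

set_option linter.unusedSectionVars false
set_option linter.unusedVariables false
set_option linter.style.haveILetI false

open IntermediateField Polynomial

namespace Vale.Agent.P297.H721.G9

open Vale.Agent.P297 Vale.Agent.P297.Gen Vale.Agent.P297.H72 Vale.Agent.P297.H637
open Vale.Agent.P297.H160.Z2Irr Vale.Agent.P297.Z2 Vale.Agent.P297.H55Z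

section closed

variable {N : Type} [Field N] [Algebra ℂ N] {M : IntermediateField ℂ N}

theorem mem_of_quad (hM : ∀ u, IsAlgebraic M u → u ∈ M) {a b c x : N} (ha : a ∈ M) (hb : b ∈ M)
    (hc : c ∈ M) (h0 : a ≠ 0) (hx : a * x ^ 2 + b * x + c = 0) : x ∈ M := by
  refine hM _ (isAlgebraic_of_coeff (p := C a * X ^ 2 + C b * X + C c) ?_ ?_ ?_)
  · intro n
    rw [coeff_add, coeff_add, coeff_C_mul, coeff_C_mul, coeff_X_pow, coeff_X, coeff_C]
    refine add_mem (add_mem (mul_mem ha ?_) (mul_mem hb ?_)) ?_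
    · split_ifs
      · exact one_mem _
      · exact zero_mem _
    · split_ifs
      · exact one_mem _
      · exact zero_mem _
    · split_ifs
      · exact hc
      · exact zero_mem _
  · intro h
    have h1 := congrArg (fun p => coeff p 2) h
    simp only [coeff_add, coeff_C_mul, coeff_X_pow, coeff_X, coeff_C, coeff_zero] at h1
    norm_num at h1
    exact h0 h1
  · simp only [eval_add, eval_mul, eval_C, eval_X, eval_pow]
    exact hx

theorem alg_mem (z : ℂ) : algebraMap ℂ N z ∈ M := M.algebraMap_mem z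

/-- The coordinates of a point of the surface are algebraic over `y` and `k`. -/
theorem mem_of_yk {P : Par} (h0 : P.P0 ≠ 0) (hM : ∀ u, IsAlgebraic M u → u ∈ M)
    {x k y σ τ : N} (hU : fU P y ≠ 0) (hV : fV P y ≠ 0) (hx : x ≠ 0) (h1 : E1 P x k y σ τ)
    (h2 : E2 P x k y σ τ) (h3 : E3 P x k y σ τ) (hy : y ∈ M) (hk : k ∈ M) :
    σ ∈ M ∧ τ ∈ M := by
  have hxM : x ∈ M := by
    refine Vale.Agent.P297.H65.mem_of_root hM (g := rQ P k y) ?_ (rQ_ne h0 k y) ?_
    · rw [Polynomial.mem_lifts]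
      refine ⟨rQ P (⟨k, hk⟩ : M) ⟨y, hy⟩, ?_⟩
      exact map_rQ P M.val ⟨k, hk⟩ ⟨y, hy⟩
    · rw [eval_rQ]
      exact fQ_eq_zero P hU hV h1 h2 h3
  have mU : fU P y ∈ M := add_mem hy (alg_mem _)
  have mV : fV P y ∈ M := add_mem hy (alg_mem _)
  have m2 : (2 : N) ∈ M := by
    have h := alg_mem (M := M) 2
    rwa [map_ofNat] at h
  have ma : fa P y ∈ M := add_mem (mul_mem m2 hy) (alg_mem _)
  have mc : fc P y ∈ M := add_mem (mul_mem m2 hy) (alg_mem _)
  have me : fe P y ∈ M := add_mem (sub_mem (alg_mem _) (pow_mem hy 2)) (mul_mem (alg_mem _) hy)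
  have mm : fm P y ∈ M := add_mem (sub_mem (alg_mem _) (pow_mem hy 2)) (mul_mem (alg_mem _) hy)
  obtain ⟨A, hA⟩ : ∃ A, A = algebraMap ℂ N P.P0 / fU P y := ⟨_, rfl⟩
  obtain ⟨B, hB⟩ : ∃ B, B = algebraMap ℂ N P.P2 / fV P y := ⟨_, rfl⟩
  have mA : A ∈ M := by rw [hA]; exact div_mem (alg_mem _) mU
  have mB : B ∈ M := by rw [hB]; exact div_mem (alg_mem _) mV
  unfold E1 at h1
  unfold E2 at h2
  unfold E3 at h3
  rw [← hA, ← hB] at h2 h3
  obtain ⟨c, hc⟩ : ∃ c, c = σ - k * τ := ⟨_, rfl⟩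
  have mcc : c ∈ M := by
    have e : c = (fe P y + B * fU P y ^ 2 + A * fV P y ^ 2) / x -
        ((1 + A + B) * k - B * k ^ 2 - A) := by
      rw [← h2, hc]
      field_simp
      ring
    rw [e]
    exact sub_mem (div_mem (add_mem (add_mem me (mul_mem mB (pow_mem mU 2)))
      (mul_mem mA (pow_mem mV 2))) hxM) (sub_mem (sub_mem (mul_mem (add_mem (add_mem
      (one_mem _) mA) mB) hk) (mul_mem mB (pow_mem hk 2))) mA)
  have hσ : σ = k * τ + c := by rw [hc]; ring
  have mτ : τ ∈ M := by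
    by_cases hk0 : k = 0
    · have e : τ = (fa P y * fU P y + x * c + fV P y ^ 2 * c) / fU P y ^ 2 := by
        rw [eq_div_iff (pow_ne_zero 2 hU)]
        rw [hk0] at h1 hσ
        rw [zero_mul, zero_add] at hσ
        rw [hσ] at h1
        linear_combination h1
      rw [e]
      exact div_mem (add_mem (add_mem (mul_mem ma mU) (mul_mem hxM mcc))
        (mul_mem (pow_mem mV 2) mcc)) (pow_mem mU 2)
    · refine mem_of_quad hM (a := x * k) (b := x * (c + 2 * A * k - 2 * B * k))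
        (c := x * ((A + B * k) ^ 2 - 2 * B * (c + 2 * A * k)) -
          (fm P y + A * fc P y * fV P y + B * fa P y * fU P y -
            (A * fV P y + B * fU P y) ^ 2)) (mul_mem hxM hk) ?_ ?_ (mul_ne_zero hx hk0) ?_
      · exact mul_mem hxM (sub_mem (add_mem mcc (mul_mem (mul_mem m2 mA) hk))
          (mul_mem (mul_mem m2 mB) hk))
      · exact sub_mem (mul_mem hxM (sub_mem (pow_mem (add_mem mA (mul_mem mB hk)) 2)
          (mul_mem (mul_mem m2 mB) (add_mem mcc (mul_mem (mul_mem m2 mA) hk)))))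
          (sub_mem (add_mem (add_mem mm (mul_mem (mul_mem mA mc) mV))
            (mul_mem (mul_mem mB ma) mU))
            (pow_mem (add_mem (mul_mem mA mV) (mul_mem mB mU)) 2))
      · rw [hσ] at h3
        linear_combination h3
  refine ⟨?_, mτ⟩
  rw [hσ]
  exact add_mem (mul_mem hk mτ) mcc

end closed

section dep

variable {N : Type} [Field N] [Algebra ℂ N] [IsAlgClosed N]

theorem cl0_empty_le (S : Set N) : cl0 (∅ : Set N) ≤ cl0 S :=
  cl0_le (cl0_closed _) (Set.empty_subset _)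

theorem notMem_empty_of_tr {t : N} (ht : Transcendental ℂ t) : t ∉ cl0 (∅ : Set N) := by
  intro h
  rw [mem_cl0] at h
  obtain ⟨z, rfl⟩ : ∃ z : ℂ, algebraMap ℂ N z = t := by
    apply alg_const
    have h1 : IsAlgebraic (⊥ : IntermediateField ℂ N) t := by
      rwa [IntermediateField.adjoin_empty] at h
    have h2 : Algebra.IsAlgebraic ℂ (⊥ : IntermediateField ℂ N) :=
      Algebra.IsAlgebraic.of_finite ℂ (⊥ : IntermediateField ℂ N)
    exact h1.restrictScalars ℂ
  exact ht (isAlgebraic_algebraMap z)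

theorem tr_of_notMem {t : N} {S : Set N} (ht : t ∉ cl0 S) : Transcendental ℂ t := by
  intro h
  obtain ⟨z, rfl⟩ := alg_const h
  exact ht (alg_mem z)

theorem dep_le {y k t : N} (h : ¬ AlgebraicIndependent ℂ ![y, k]) (ht : Transcendental ℂ t)
    (hm : t ∈ cl0 {y, k}) : y ∈ cl0 {t} ∧ k ∈ cl0 {t} := by
  have ht0 := notMem_empty_of_tr ht
  have hE := cl0_closed (∅ : Set N)
  have hle : clo (cl0 (∅ : Set N)) {t} ≤ cl0 {t} :=
    clo_le (cl0_closed _) (cl0_empty_le _) (subset_cl0 _)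
  by_cases hy : y ∈ cl0 (∅ : Set N)
  · refine ⟨cl0_empty_le _ hy, hle (exchange hE ?_ ht0)⟩
    refine cl0_le (clo_closed _ _) ?_ hm
    rintro z (rfl | rfl)
    · exact le_clo _ _ hy
    · exact subset_clo _ _ rfl
  · have hk : k ∈ cl0 {y} := by
      rw [mem_cl0]
      by_contra hk
      apply h
      rw [pair_iff']
      exact ⟨tr_of_notMem hy, hk⟩
    have hy' : y ∈ cl0 {t} := by
      refine hle (exchange hE ?_ ht0)
      have hle2 : cl0 {y} ≤ clo (cl0 (∅ : Set N)) {y} :=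
        cl0_le (clo_closed _ _) (subset_clo _ _)
      refine cl0_le (clo_closed _ _) ?_ hm
      rintro z (rfl | rfl)
      · exact subset_clo _ _ rfl
      · exact hle2 hk
    refine ⟨hy', cl0_le (cl0_closed _) ?_ hk⟩
    rintro z rfl
    exact hy'

end dep

section node

variable {N : Type} [Field N] [Algebra ℂ N] [IsAlgClosed N] {P : Par} {l al be : N}
  {M : IntermediateField ℂ N} {V : Plc M N}

theorem val_tq {t : N} {a : M} (h : V.Val t a) : V.Val (tq P t) (tq P a) := by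
  have h1 := val_pr (tq P (mk h))
  rwa [map_tq, map_tq] at h1

theorem val_tg {t : N} {a : M} (h : V.Val t a) : V.Val (tg P t) (tg P a) := by
  have h1 := val_pr (tg P (mk h))
  rwa [map_tg, map_tg] at h1

theorem val_tD {t : N} {a : M} (h : V.Val t a) : V.Val (tD P t) (tD P a) := by
  have h1 := val_pr (tD P (mk h))
  rwa [map_tD, map_tD] at h1

theorem node_val (h : NC P) (hl : Transcendental ℂ l) (hn : IsNode P l al be) {a : M}
    (ht : V.Val (al / be) a) (hD : tD P a ≠ 0) : V.Val l (tg P a / tD P a) ∧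
      V.Val al (a * (tq P a / tD P a)) ∧ V.Val be (tq P a / tD P a) := by
  have h1 := tC_of_isNode hn
  have h2 := root_tr h hl h1
  have h3 := l_eq h h2 h1
  obtain ⟨h4, h5⟩ := be_of_isNode h hl hn
  have hb : V.Val be (tq P a / tD P a) := by
    rw [h4]
    exact (val_tq ht).div (val_tD ht) hD
  refine ⟨?_, ?_, hb⟩
  · rw [h3]
    exact (val_tg ht).div (val_tD ht) hD
  · have h6 : al = al / be * be := by
      rw [div_mul_cancel₀ _ hn.be0]
    rw [h6]
    exact ht.mul hb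

/-- `t → 0` -/
theorem node_zero (h : NC P) (hl : Transcendental ℂ l) (hn : IsNode P l al be)
    (ht : V.Val (al / be) 0) : V.Val l 0 ∧ V.Val al 0 ∧ V.Val be 1 := by
  have hB : algebraMap ℂ M P.P2 ≠ 0 := (_root_.map_ne_zero _).2 h.P2
  have eq : tq P (0 : M) = algebraMap ℂ M P.P2 := by
    unfold tq
    ring
  have eg : tg P (0 : M) = 0 := by
    unfold tg
    ring
  have eD : tD P (0 : M) = algebraMap ℂ M P.P2 := by
    unfold tD
    rw [eq, eg]
    ring
  obtain ⟨h1, h2, h3⟩ := node_val h hl hn ht (by rw [eD]; exact hB)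
  rw [eg, zero_div] at h1
  rw [zero_mul] at h2
  rw [eq, eD, div_self hB] at h3
  exact ⟨h1, h2, h3⟩

/-- `t → Q₁ / Q₀` -/
theorem node_mid (h : NC P) (hQ0 : P.Q0 ≠ 0) (hl : Transcendental ℂ l) (hn : IsNode P l al be)
    (ht : V.Val (al / be) (algebraMap ℂ M (P.Q1 / P.Q0))) : V.Val l 0 ∧
      V.Val al (algebraMap ℂ M (P.Q1 / (P.Q0 - P.Q1))) ∧
      V.Val be (algebraMap ℂ M (P.Q0 / (P.Q0 - P.Q1))) := by
  have hQ : P.Q0 - P.Q1 ≠ 0 := sub_ne_zero.2 h.Q
  have hR : tq P (P.Q1 / P.Q0) ≠ 0 := by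
    have e : tq P (P.Q1 / P.Q0) = (P.P0 * P.Q1 ^ 2 - P.P1 * P.Q0 * P.Q1 + P.P2 * P.Q0 ^ 2) /
        P.Q0 ^ 2 := by
      simp only [tq, Algebra.algebraMap_self, RingHom.id_apply]
      field_simp
    rw [e]
    exact div_ne_zero h.R (pow_ne_zero 2 hQ0)
  have hg : tg P (P.Q1 / P.Q0) = 0 := by
    simp only [tg, Algebra.algebraMap_self, RingHom.id_apply]
    field_simp
    ring
  have hD : tD P (P.Q1 / P.Q0) = (1 - P.Q1 / P.Q0) * tq P (P.Q1 / P.Q0) := by
    unfold tD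
    rw [hg, add_zero]
  have h1 : (1 : ℂ) - P.Q1 / P.Q0 ≠ 0 := by
    rw [one_sub_div hQ0]
    exact div_ne_zero hQ hQ0
  have hD0 : tD P (P.Q1 / P.Q0) ≠ 0 := by
    rw [hD]
    exact mul_ne_zero h1 hR
  have m1 := map_tq P (Algebra.ofId ℂ M) (P.Q1 / P.Q0)
  have m2 := map_tg P (Algebra.ofId ℂ M) (P.Q1 / P.Q0)
  have m3 := map_tD P (Algebra.ofId ℂ M) (P.Q1 / P.Q0)
  simp only [Algebra.ofId_apply] at m1 m2 m3
  obtain ⟨k1, k2, k3⟩ := node_val h hl hn ht (by rw [← m3]; exact (_root_.map_ne_zero _).2 hD0)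
  rw [← m2, hg, map_zero, zero_div] at k1
  have e : tq P (P.Q1 / P.Q0) / tD P (P.Q1 / P.Q0) = P.Q0 / (P.Q0 - P.Q1) := by
    rw [hD]
    field_simp
  rw [← m1, ← m3, ← map_div₀, e] at k2 k3
  refine ⟨k1, ?_, k3⟩
  rw [← map_mul] at k2
  have e2 : P.Q1 / P.Q0 * (P.Q0 / (P.Q0 - P.Q1)) = P.Q1 / (P.Q0 - P.Q1) := by
    field_simp
  rwa [e2] at k2

/-- `t → ∞` -/
theorem node_inf (h : NC P) (hl : Transcendental ℂ l) (hn : IsNode P l al be)
    (ht : V.Val (al / be)⁻¹ 0) : V.Val l 0 ∧ V.Val al (-1) ∧ V.Val be 0 := by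
  have h1 := tC_of_isNode hn
  have h2 := root_tr h hl h1
  have h3 := l_eq h h2 h1
  obtain ⟨h4, h5⟩ := be_of_isNode h hl hn
  have hD := tD_ne h h2
  have ht0 : al / be ≠ 0 := div_ne_zero hn.al0 hn.be0
  set t := al / be with htdef
  obtain ⟨w, hw⟩ : ∃ w, w = t⁻¹ := ⟨_, rfl⟩
  rw [← hw] at ht
  have hwt : t * w = 1 := by rw [hw]; exact mul_inv_cancel₀ ht0
  have vA : V.Val (algebraMap ℂ N P.P0) (algebraMap ℂ M P.P0) := val_alg V _
  have vP1 : V.Val (algebraMap ℂ N P.P1) (algebraMap ℂ M P.P1) := val_alg V _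
  have vB : V.Val (algebraMap ℂ N P.P2) (algebraMap ℂ M P.P2) := val_alg V _
  have vQ0 : V.Val (algebraMap ℂ N P.Q0) (algebraMap ℂ M P.Q0) := val_alg V _
  have vQ1 : V.Val (algebraMap ℂ N P.Q1) (algebraMap ℂ M P.Q1) := val_alg V _
  obtain ⟨q, hq⟩ : ∃ q, q = algebraMap ℂ N P.P0 - algebraMap ℂ N P.P1 * w +
    algebraMap ℂ N P.P2 * w ^ 2 := ⟨_, rfl⟩
  obtain ⟨d, hd⟩ : ∃ d, d = (w - 1) * q + w * (algebraMap ℂ N P.Q0 - algebraMap ℂ N P.Q1 * w) :=
    ⟨_, rfl⟩
  have vq : V.Val q (algebraMap ℂ M P.P0) := by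
    have h6 := (vA.sub (vP1.mul ht)).add (vB.mul (ht.pow 2))
    rw [hq]
    convert h6 using 1
    ring
  have vd : V.Val d (-algebraMap ℂ M P.P0) := by
    have h6 := ((ht.sub V.val_one).mul vq).add (ht.mul (vQ0.sub (vQ1.mul ht)))
    rw [hd]
    convert h6 using 1
    ring
  have hA : algebraMap ℂ M P.P0 ≠ 0 := (_root_.map_ne_zero _).2 h.P0
  have hd0 : d ≠ 0 := vd.ne_zero (neg_ne_zero.2 hA)
  have e1 : tq P t = t ^ 2 * q := by
    rw [hq]
    unfold tq
    linear_combination (algebraMap ℂ N P.P1 * t - algebraMap ℂ N P.P2 * (t * w + 1)) * hwt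
  have e2 : tg P t = t ^ 2 * (algebraMap ℂ N P.Q0 - algebraMap ℂ N P.Q1 * w) := by
    unfold tg
    linear_combination (algebraMap ℂ N P.Q1 * t) * hwt
  have e3 : tD P t = t ^ 3 * d := by
    unfold tD
    rw [e1, e2, hd]
    linear_combination (-(t ^ 2 * q) - t ^ 2 * (algebraMap ℂ N P.Q0 - algebraMap ℂ N P.Q1 * w)) * hwt
  have hal : al = q / d := by
    rw [h5]
    unfold nal nbe
    rw [e1, e3]
    field_simp
  have hbe : be = w * (q / d) := by
    rw [h4]
    unfold nbe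
    rw [e1, e3, hw]
    field_simp
  have hll : l = w * ((algebraMap ℂ N P.Q0 - algebraMap ℂ N P.Q1 * w) / d) := by
    rw [h3, e2, e3, hw]
    field_simp
  refine ⟨?_, ?_, ?_⟩
  · rw [hll]
    have h6 := ht.mul ((vQ0.sub (vQ1.mul ht)).div vd (neg_ne_zero.2 hA))
    rwa [zero_mul] at h6
  · rw [hal]
    have h6 := vq.div vd (neg_ne_zero.2 hA)
    rwa [div_neg, div_self hA] at h6
  · rw [hbe]
    have h6 := ht.mul (vq.div vd (neg_ne_zero.2 hA))
    rwa [zero_mul] at h6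

end node

end Vale.Agent.P297.H721.G9
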