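import Vale.Agent.P297.H721.Z2.Ind

/-!
General numerical Godeaux surfaces with torsion of order two: a limit point over `l = 0` through
which three tangent lines in the three directions pass is constant.
-/

set_option linter.unusedSectionVars false
set_option linter.unusedVariables false
set_option linter.style.haveILetI false

open IntermediateField Polynomial

namespace Vale.Agent.P297.H721.G9

open Vale.Agent.P297 Vale.Agent.P297.Gen Vale.Agent.P297.H72 Vale.Agent.P297.H637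
open Vale.Agent.P297.H160.Z2Irr Vale.Agent.P297.Z2 Vale.Agent.P297.H55Z

variable {N : Type} [Field N] [Algebra ℂ N] {P : Par}

/-- The limit point is not on `J = N = 0`. -/
theorem J_ne (hP0 : P.P0 ≠ 0) (hQ1 : P.Q1 ≠ 0) {y k σ τ p r S : N} (hU : fU P y ≠ 0)
    (hV : fV P y ≠ 0) (h0 : (dat P y).h 0 ≠ 0) (h : LP P y k σ τ p r S)
    (d1 : algebraMap ℂ N P.Q1 * (dat P y).N p r = p * (dat P y).J0 p r) :
    (dat P y).J0 p r ≠ 0 := by
  have hc : CharZero N := charZero_of_injective_algebraMap (algebraMap ℂ N).injective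
  have hq1 : algebraMap ℂ N P.Q1 ≠ 0 := (_root_.map_ne_zero _).2 hQ1
  have hA : algebraMap ℂ N P.P0 ≠ 0 := (_root_.map_ne_zero _).2 hP0
  intro hJ
  rw [hJ, mul_zero] at d1
  have hN := (mul_eq_zero.1 d1).resolve_left hq1
  have hK : (dat P y).K 0 p r = 0 := by
    unfold Dat.K
    rw [hJ, hN]
    ring
  have hS : S = 0 := by
    have h1 := h.e5
    unfold tB Dat.Bq at h1
    rw [hK, hN] at h1
    have h2 : S ^ 2 = 0 := by
      rw [h1]
      ring
    exact (pow_eq_zero_iff two_ne_zero).1 h2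
  have hE : (dat P y).E p ≠ 0 := by
    intro hE
    have h1 := h.e1
    rw [hE, zero_mul] at h1
    exact h0 h1.symm
  have hF : (dat P y).F r = 0 := by
    have h1 := h.e6
    unfold tPhi Dat.Phi at h1
    rw [hK, hN, hS] at h1
    have h2 : (2 * (dat P y).h 0 * (dat P y).E p) * (dat P y).F r = 0 := by
      linear_combination h1
    exact (mul_eq_zero.1 h2).resolve_left (mul_ne_zero (mul_ne_zero two_ne_zero h0) hE)
  have e : (dat P y).E p * (dat P y).F r - algebraMap ℂ N P.P2 * fU P y * (dat P y).F r -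
      algebraMap ℂ N P.P0 * fV P y * (dat P y).E p = fU P y * fV P y * (dat P y).N p r := by
    unfold Dat.E Dat.F Dat.N dat
    ring
  rw [hF, hN] at e
  apply mul_ne_zero (mul_ne_zero hA hV) hE
  linear_combination -e

/-- **The limit point is constant.** -/
theorem const_of {M : IntermediateField ℂ N} (hM : ∀ u, IsAlgebraic M u → u ∈ M)
    (hM1 : P.M1 = 0) (hP0 : P.P0 ≠ 0) (hP2 : P.P2 ≠ 0) (hQ0 : P.Q0 ≠ 0) (hQ1 : P.Q1 ≠ 0)
    (hQ : P.Q0 ≠ P.Q1) {y k σ τ p r S : N} (hU : fU P y ≠ 0)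
    (hV : fV P y ≠ 0) (h0 : (dat P y).h 0 ≠ 0) (h : LP P y k σ τ p r S)
    (d1 : algebraMap ℂ N P.Q1 * (dat P y).N p r = p * (dat P y).J0 p r)
    (d2 : algebraMap ℂ N P.Q0 * (dat P y).N p r = r * (dat P y).J0 p r)
    (d3 : (dat P y).J0 p r = 0 ∨ (algebraMap ℂ N (P.Q1 / (P.Q0 - P.Q1)) * r +
      algebraMap ℂ N (P.Q0 / (P.Q0 - P.Q1)) * p) ^ 2 = algebraMap ℂ N (P.Q1 / (P.Q0 - P.Q1)) *
      algebraMap ℂ N (P.Q0 / (P.Q0 - P.Q1)) * ((dat P y).J0 p r +
        4 * algebraMap ℂ N P.P0 * algebraMap ℂ N P.P2)) : y ∈ M ∧ k ∈ M := by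
  have hc : CharZero N := charZero_of_injective_algebraMap (algebraMap ℂ N).injective
  have hJ := J_ne hP0 hQ1 hU hV h0 h d1
  replace d3 := d3.resolve_left hJ
  have hq0 : algebraMap ℂ N P.Q0 ≠ 0 := (_root_.map_ne_zero _).2 hQ0
  have hq1 : algebraMap ℂ N P.Q1 ≠ 0 := (_root_.map_ne_zero _).2 hQ1
  have hA : algebraMap ℂ N P.P0 ≠ 0 := (_root_.map_ne_zero _).2 hP0
  have hB : algebraMap ℂ N P.P2 ≠ 0 := (_root_.map_ne_zero _).2 hP2
  have hd : P.Q0 - P.Q1 ≠ 0 := sub_ne_zero.2 hQ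
  have hE : (dat P y).E p ≠ 0 := by
    intro hE
    have h1 := h.e1
    rw [hE, zero_mul] at h1
    exact h0 h1.symm
  obtain ⟨J, hJd⟩ : ∃ J, J = (dat P y).J0 p r := ⟨_, rfl⟩
  rw [← hJd] at hJ d1 d2 d3
  have hN : (dat P y).N p r = p * r - algebraMap ℂ N P.P0 * algebraMap ℂ N P.P2 := rfl
  rw [hN] at d1 d2
  obtain ⟨a, ha⟩ : ∃ a, a = algebraMap ℂ N (P.Q1 / (P.Q0 - P.Q1)) := ⟨_, rfl⟩
  obtain ⟨b, hb⟩ : ∃ b, b = algebraMap ℂ N (P.Q0 / (P.Q0 - P.Q1)) := ⟨_, rfl⟩
  rw [← ha, ← hb] at d3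
  have hab : algebraMap ℂ N P.Q0 * a = algebraMap ℂ N P.Q1 * b := by
    rw [ha, hb, ← map_mul, ← map_mul]
    congr 1
    field_simp
  have hb0 : b ≠ 0 := by
    rw [hb]
    exact (_root_.map_ne_zero _).2 (div_ne_zero hQ0 hd)
  have e1 : algebraMap ℂ N P.Q1 * r = algebraMap ℂ N P.Q0 * p := by
    apply mul_right_cancel₀ hJ
    linear_combination algebraMap ℂ N P.Q0 * d1 - algebraMap ℂ N P.Q1 * d2
  have hp : p ≠ 0 := by
    intro hp
    rw [hp, zero_mul, zero_mul, zero_sub, mul_neg, neg_eq_zero] at d1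
    exact mul_ne_zero hq1 (mul_ne_zero hA hB) d1
  have e2 : a * r = b * p := by
    apply mul_left_cancel₀ hq1
    linear_combination a * e1 + p * hab
  have e3 : 4 * b * p ^ 2 = a * (J + 4 * algebraMap ℂ N P.P0 * algebraMap ℂ N P.P2) := by
    apply mul_left_cancel₀ hb0
    rw [e2] at d3
    linear_combination d3
  have e4 : 4 * b * p ^ 3 - algebraMap ℂ N P.Q0 * a * p ^ 2 -
      4 * a * algebraMap ℂ N P.P0 * algebraMap ℂ N P.P2 * p +
      a * algebraMap ℂ N P.Q1 * (algebraMap ℂ N P.P0 * algebraMap ℂ N P.P2) = 0 := by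
    linear_combination p * e3 - a * d1 + a * p * e1
  have mp : p ∈ M := by
    refine hM _ (isAlgebraic_of_coeff (p := C (4 * b) * X ^ 3 + C (-(algebraMap ℂ N P.Q0 * a)) * X ^ 2
      + C (-(4 * a * algebraMap ℂ N P.P0 * algebraMap ℂ N P.P2)) * X +
      C (a * algebraMap ℂ N P.Q1 * (algebraMap ℂ N P.P0 * algebraMap ℂ N P.P2))) ?_ ?_ ?_)
    · have m4 : (4 : N) ∈ M := by
        have h := alg_mem (M := M) 4
        rwa [map_ofNat] at h
      have ma : a ∈ M := by rw [ha]; exact alg_mem _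
      have mb : b ∈ M := by rw [hb]; exact alg_mem _
      intro n
      rw [coeff_add, coeff_add, coeff_add, coeff_C_mul, coeff_C_mul, coeff_C_mul, coeff_X_pow,
        coeff_X_pow, coeff_X, coeff_C]
      refine add_mem (add_mem (add_mem (mul_mem (mul_mem m4 mb) ?_)
        (mul_mem (neg_mem (mul_mem (alg_mem _) ma)) ?_))
        (mul_mem (neg_mem (mul_mem (mul_mem (mul_mem m4 ma) (alg_mem _)) (alg_mem _))) ?_)) ?_
      · split_ifs
        · exact one_mem _
        · exact zero_mem _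
      · split_ifs
        · exact one_mem _
        · exact zero_mem _
      · split_ifs
        · exact one_mem _
        · exact zero_mem _
      · split_ifs
        · exact mul_mem (mul_mem ma (alg_mem _)) (mul_mem (alg_mem _) (alg_mem _))
        · exact zero_mem _
    · intro h1
      have h2 := congrArg (fun p => coeff p 3) h1
      simp only [coeff_add, coeff_C_mul, coeff_X_pow, coeff_X, coeff_C, coeff_zero] at h2
      norm_num at h2
      exact hb0 h2
    · simp only [eval_add, eval_mul, eval_C, eval_X, eval_pow]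
      linear_combination e4
  have mr : r ∈ M := by
    have e : r = algebraMap ℂ N P.Q0 * p / algebraMap ℂ N P.Q1 := by
      rw [eq_div_iff hq1]
      linear_combination e1
    rw [e]
    exact div_mem (mul_mem (alg_mem _) mp) (alg_mem _)
  have mJ : J ∈ M := by
    have e : J = algebraMap ℂ N P.Q1 * (p * r - algebraMap ℂ N P.P0 * algebraMap ℂ N P.P2) / p := by
      rw [eq_div_iff hp]
      linear_combination -d1
    rw [e]
    exact div_mem (mul_mem (alg_mem _) (sub_mem (mul_mem mp mr) (mul_mem (alg_mem _)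
      (alg_mem _)))) mp
  have m2 : (2 : N) ∈ M := by
    have h := alg_mem (M := M) 2
    rwa [map_ofNat] at h
  have my : y ∈ M := by
    refine mem_of_quad hM (a := 1) (b := 2 * (p + r)) (c := (p + r) ^ 2 + algebraMap ℂ N P.Q0 * p +
      algebraMap ℂ N P.Q1 * r - algebraMap ℂ N P.m - J) (one_mem _)
      (mul_mem m2 (add_mem mp mr)) ?_ one_ne_zero ?_
    · exact sub_mem (sub_mem (add_mem (add_mem (pow_mem (add_mem mp mr) 2)
        (mul_mem (alg_mem _) mp)) (mul_mem (alg_mem _) mr)) (alg_mem _)) mJ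
    · rw [hJd]
      unfold Dat.J0 dat fa fc fm
      rw [hM1, map_zero]
      ring
  refine ⟨my, ?_⟩
  have mU : fU P y ∈ M := add_mem my (alg_mem _)
  have mV : fV P y ∈ M := add_mem my (alg_mem _)
  have mE : (dat P y).E p ∈ M := add_mem (mul_mem mV mp) (mul_mem (alg_mem _) mU)
  have mF : (dat P y).F r ∈ M := add_mem (mul_mem mU mr) (mul_mem (alg_mem _) mV)
  have e : k = (dat P y).F r / (dat P y).E p := by
    rw [eq_div_iff hE]
    exact h.e2
  rw [e]
  exact div_mem mF mE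

end Vale.Agent.P297.H721.G9
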