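import Vale.Agent.P297.H721.Z2.Cl
import Vale.Agent.P297.H682.Z2.Dir
import Vale.Agent.P297.H682.Z2.Kc
import Vale.Agent.P297.H55.Z2.Deg

/-!
General numerical Godeaux surfaces with torsion of order two: the coordinates `y` and `k` of a
point of the surface on the general line through a node are independent.
-/

set_option linter.unusedSectionVars false
set_option linter.unusedVariables false
set_option linter.style.haveILetI false

open IntermediateField Polynomial

namespace Vale.Agent.P297.H721.G9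

open Vale.Agent.P297 Vale.Agent.P297.Gen Vale.Agent.P297.H72 Vale.Agent.P297.H637
open Vale.Agent.P297.H160.Z2Irr Vale.Agent.P297.Z2 Vale.Agent.P297.H55Z

section ring

variable {R : Type*} [CommRing R]

/-- the linear form -/
def Lf (D : Dat R) (k σ τ : R) : R := D.U ^ 2 * τ - D.V ^ 2 * σ - D.a * D.U - D.c * D.V * k

theorem map_Lf [Algebra ℂ R] {R' : Type*} [CommRing R'] [Algebra ℂ R'] (P : Par) (f : R →ₐ[ℂ] R')
    (y k σ τ : R) : f (Lf (dat P y) k σ τ) = Lf (dat P (f y)) (f k) (f σ) (f τ) := by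
  rw [← map_dat]
  simp only [Lf, Dat.map, map_sub, map_mul, map_pow]

theorem map_J0 [Algebra ℂ R] {R' : Type*} [CommRing R'] [Algebra ℂ R'] (P : Par) (f : R →ₐ[ℂ] R')
    (y p r : R) : f ((dat P y).J0 p r) = (dat P (f y)).J0 (f p) (f r) := by
  rw [← map_dat]
  simp only [Dat.J0, Dat.map, map_add, map_sub, map_mul, map_pow]

theorem map_N [Algebra ℂ R] {R' : Type*} [CommRing R'] [Algebra ℂ R'] (P : Par) (f : R →ₐ[ℂ] R')
    (y p r : R) : f ((dat P y).N p r) = (dat P (f y)).N (f p) (f r) := by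
  rw [← map_dat]
  simp only [Dat.N, Dat.map, map_sub, map_mul]

end ring

section field

variable {k : Type*} [Field k] [CharZero k] (D : Dat k) {l p r S : k}

theorem Lf_eq (hU : D.U ≠ 0) (hV : D.V ≠ 0) (hE : D.E p ≠ 0) :
    D.E p * (D.U * D.V * Lf D (D.kap p r) (D.sg l p r S) (D.ta l p r S)) = D.h l := by
  have h1 := D.L_eq l p r S
  have h2 : 2 * D.U * D.V * D.E p * D.sg l p r S = D.sN l p r S := by
    unfold Dat.sg
    field_simp
  have h3 : 2 * D.U * D.V * D.E p * D.ta l p r S = D.tN l p r S := by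
    unfold Dat.ta
    field_simp
  have h4 : D.kap p r * D.E p = D.F r := div_mul_cancel₀ _ hE
  rw [← h2, ← h3, ← h4] at h1
  unfold Lf
  linear_combination h1 / 2

end field

section lim

variable {N : Type} [Field N] [Algebra ℂ N] {P : Par}

/-- The limit of a point of the surface over `l = 0`. -/
structure LP (P : Par) (y k σ τ p r S : N) : Prop where
  e1 : (dat P y).E p * (fU P y * fV P y * Lf (dat P y) k σ τ) = (dat P y).h 0
  e2 : k * (dat P y).E p = (dat P y).F r
  e5 : S ^ 2 = tB P 0 p r y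
  e6 : tPhi P 0 p r y S = 0

theorem LP.unique {y k σ τ p r S p' r' S' : N} (h : LP P y k σ τ p r S)
    (h' : LP P y k σ τ p' r' S') (hU : fU P y ≠ 0) (hV : fV P y ≠ 0)
    (hL : Lf (dat P y) k σ τ ≠ 0) : p' = p ∧ r' = r := by
  have h1 : (dat P y).E p' = (dat P y).E p := by
    apply mul_right_cancel₀ (mul_ne_zero (mul_ne_zero hU hV) hL)
    rw [h.e1, h'.e1]
  have h2 : (dat P y).F r' = (dat P y).F r := by rw [← h.e2, ← h'.e2, h1]
  constructor
  · apply mul_left_cancel₀ hV
    have h3 : fV P y * p' + algebraMap ℂ N P.P2 * fU P y =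
      fV P y * p + algebraMap ℂ N P.P2 * fU P y := h1
    linear_combination h3
  · apply mul_left_cancel₀ hU
    have h3 : fU P y * r' + algebraMap ℂ N P.P0 * fV P y =
      fU P y * r + algebraMap ℂ N P.P0 * fV P y := h2
    linear_combination h3

variable {M : IntermediateField ℂ N} {V : Plc M N} {l al be p0 r0 s s' y k σ τ p r S : N}

/-- **The limit of a point of the surface, with fixed coordinates, over `l = 0`.** -/
theorem lim_pt (hl : V.Val l 0) (hy : y ∈ M) (hk : k ∈ M) (hσ : σ ∈ M) (hτ : τ ∈ M)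
    (hU : fU P y ≠ 0) (hV : fV P y ≠ 0) (hL : Lf (dat P y) k σ τ ≠ 0)
    (e1 : (dat P y).E p * (fU P y * fV P y * Lf (dat P y) k σ τ) = (dat P y).h l)
    (e2 : k * (dat P y).E p = (dat P y).F r) (e5 : S ^ 2 = tB P l p r y)
    (e6 : tPhi P l p r y S = 0) :
    ∃ p' r' S' : M, V.Val p p' ∧ V.Val r r' ∧ V.Val S S' ∧
      LP P y k σ τ (p' : N) (r' : N) (S' : N) := by
  obtain ⟨y', hy'⟩ : ∃ y' : M, y' = ⟨y, hy⟩ := ⟨_, rfl⟩
  obtain ⟨k', hk'⟩ : ∃ k' : M, k' = ⟨k, hk⟩ := ⟨_, rfl⟩
  obtain ⟨σ', hσ'⟩ : ∃ σ' : M, σ' = ⟨σ, hσ⟩ := ⟨_, rfl⟩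
  obtain ⟨τ', hτ'⟩ : ∃ τ' : M, τ' = ⟨τ, hτ⟩ := ⟨_, rfl⟩
  have cy : M.val y' = y := by rw [hy']; rfl
  have ck : M.val k' = k := by rw [hk']; rfl
  have cσ : M.val σ' = σ := by rw [hσ']; rfl
  have cτ : M.val τ' = τ := by rw [hτ']; rfl
  have vy : V.Val y y' := by rw [← cy]; exact V.val_const y'
  have vk : V.Val k k' := by rw [← ck]; exact V.val_const k'
  have cL : M.val (Lf (dat P y') k' σ' τ') = Lf (dat P y) k σ τ := by
    rw [map_Lf, cy, ck, cσ, cτ]
  have vL : V.Val (Lf (dat P y) k σ τ) (Lf (dat P y') k' σ' τ') := by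
    rw [← cL]
    exact V.val_const _
  have cU : M.val (fU P y') = fU P y := by rw [map_fU, cy]
  have cV : M.val (fV P y') = fV P y := by rw [map_fV, cy]
  have hL' : Lf (dat P y') k' σ' τ' ≠ 0 := by
    intro h
    rw [h, map_zero] at cL
    exact hL cL.symm
  have hU' : fU P y' ≠ 0 := by
    intro h
    rw [h, map_zero] at cU
    exact hU cU.symm
  have hV' : fV P y' ≠ 0 := by
    intro h
    rw [h, map_zero] at cV
    exact hV cV.symm
  have vU : V.Val (fU P y) (fU P y') := val_fU vy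
  have vV : V.Val (fV P y) (fV P y') := val_fV vy
  have vh : V.Val ((dat P y).h l) ((dat P y').h 0) := val_h hl vy
  have hW' : fU P y' * fV P y' * Lf (dat P y') k' σ' τ' ≠ 0 :=
    mul_ne_zero (mul_ne_zero hU' hV') hL'
  have hW : fU P y * fV P y * Lf (dat P y) k σ τ ≠ 0 := mul_ne_zero (mul_ne_zero hU hV) hL
  have vE0 : V.Val ((dat P y).E p) ((dat P y').h 0 / (fU P y' * fV P y' *
      Lf (dat P y') k' σ' τ')) := by
    rw [eq_div_of_mul_eq hW e1]
    exact vh.div ((vU.mul vV).mul vL) hW'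
  obtain ⟨E', hE'⟩ : ∃ E', E' = (dat P y').h 0 / (fU P y' * fV P y' *
      Lf (dat P y') k' σ' τ') := ⟨_, rfl⟩
  rw [← hE'] at vE0
  have vp : V.Val p ((E' - algebraMap ℂ M P.P2 * fU P y') / fV P y') := by
    have e : p = ((dat P y).E p - algebraMap ℂ N P.P2 * fU P y) / fV P y := by
      rw [eq_div_iff hV]
      change p * fV P y = (fV P y * p + algebraMap ℂ N P.P2 * fU P y) -
        algebraMap ℂ N P.P2 * fU P y
      ring
    rw [e]
    exact (vE0.sub ((val_alg V _).mul vU)).div vV hV'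
  have vr : V.Val r ((k' * E' - algebraMap ℂ M P.P0 * fV P y') / fU P y') := by
    have e : r = (k * (dat P y).E p - algebraMap ℂ N P.P0 * fV P y) / fU P y := by
      rw [eq_div_iff hU, e2]
      change r * fU P y = (fU P y * r + algebraMap ℂ N P.P0 * fV P y) -
        algebraMap ℂ N P.P0 * fV P y
      ring
    rw [e]
    exact ((vk.mul vE0).sub ((val_alg V _).mul vV)).div vU hU'
  obtain ⟨p', hp'⟩ : ∃ p', p' = (E' - algebraMap ℂ M P.P2 * fU P y') / fV P y' := ⟨_, rfl⟩
  obtain ⟨r', hr'⟩ : ∃ r', r' = (k' * E' - algebraMap ℂ M P.P0 * fV P y') / fU P y' := ⟨_, rfl⟩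
  rw [← hp'] at vp
  rw [← hr'] at vr
  have vB := val_tB (P := P) hl vp vr vy
  rw [← e5] at vB
  obtain ⟨S', vS⟩ := fin_of_sq vB
  refine ⟨p', r', S', vp, vr, vS, ?_, ?_, ?_, ?_⟩
  · have h1 : (dat P y').E p' * (fU P y' * fV P y' * Lf (dat P y') k' σ' τ') =
        (dat P y').h 0 := by
      have h2 := (val_E (P := P) vp vy).mul ((vU.mul vV).mul vL)
      rw [e1] at h2
      exact h2.unique vh
    have h2 := congrArg M.val h1
    rw [map_mul, map_mul, map_mul, map_E, map_h, cL, cU, cV, map_zero, cy] at h2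
    exact h2
  · have h1 : k' * (dat P y').E p' = (dat P y').F r' := by
      have h2 := vk.mul (val_E (P := P) vp vy)
      rw [e2] at h2
      exact h2.unique (val_F (P := P) vr vy)
    have h2 := congrArg M.val h1
    rw [map_mul, map_E, map_F, ck, cy] at h2
    exact h2
  · have h1 : S' ^ 2 = tB P 0 p' r' y' := (vS.pow 2).unique vB
    have h2 := congrArg M.val h1
    rw [map_pow, map_tB, cy, map_zero] at h2
    exact h2
  · have h1 : tPhi P 0 p' r' y' S' = 0 := by
      have h2 := val_tPhi (P := P) hl vp vr vy vS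
      rw [e6] at h2
      exact h2.unique V.val_zero
    have h2 := congrArg M.val h1
    rw [map_tPhi, cy, map_zero] at h2
    exact h2

/-- The limit of the line. -/
theorem lim_dir {a b p' r' : M} (hl : V.Val l 0) (hal : V.Val al a) (hbe : V.Val be b)
    (hp : V.Val p p') (hr : V.Val r r') (hy : y ∈ M) (L : NLine P l al be p0 r0 s s')
    (hp0 : p = al * y + p0) (hr0 : r = -be * y + r0) :
    ∃ s s' : M, ∀ z : M, tB P 0 (a * (z - ⟨y, hy⟩) + p') (-b * (z - ⟨y, hy⟩) + r') z =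
      (s * z + s') ^ 2 := by
  have vy : V.Val y (⟨y, hy⟩ : M) := V.val_const (⟨y, hy⟩ : M)
  have v1 : V.Val p0 (p' - a * ⟨y, hy⟩) := by
    have e : p0 = p - al * y := by rw [hp0]; ring
    rw [e]
    exact hp.sub (hal.mul vy)
  have v2 : V.Val r0 (r' + b * ⟨y, hy⟩) := by
    have e : r0 = r + be * y := by rw [hr0]; ring
    rw [e]
    exact hr.add (hbe.mul vy)
  obtain ⟨s₁, s₂, -, -, h⟩ := lim_line hl hal hbe v1 v2 L
  refine ⟨s₁, s₂, fun z => ?_⟩
  rw [← h z]
  congr 1
  · ring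
  · ring

end lim

end Vale.Agent.P297.H721.G9
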