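import Vale.Agent.P297.H721.Z2.Const

/-!
General numerical Godeaux surfaces with torsion of order two: the coordinates `y` and `k` of a
point of the surface on the general line through a node are independent.
-/

set_option linter.unusedSectionVars false
set_option linter.unusedVariables false
set_option linter.style.haveILetI false

open IntermediateField Polynomial

namespace Vale.Agent.P297.H721.G9

open Vale.Agent.P297 Vale.Agent.P297.Gen Vale.Agent.P297.H72 Vale.Agent.P297.H637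
open Vale.Agent.P297.H160.Z2Irr Vale.Agent.P297.Z2 Vale.Agent.P297.H55Z

section a

variable {N : Type} [Field N] [Algebra ℂ N] {P : Par}
  {l al be p0 r0 s s' y k σ τ p r S : N}

/-- The data of a point of the surface on a line through a node. -/
structure OnL (P : Par) (l al be p0 r0 s s' y k σ τ p r S : N) : Prop where
  L : NLine P l al be p0 r0 s s'
  hp : p = al * y + p0
  hr : r = -be * y + r0
  hU : fU P y ≠ 0
  hV : fV P y ≠ 0
  hL : Lf (dat P y) k σ τ ≠ 0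
  e1 : (dat P y).E p * (fU P y * fV P y * Lf (dat P y) k σ τ) = (dat P y).h l
  e2 : k * (dat P y).E p = (dat P y).F r
  e5 : S ^ 2 = tB P l p r y
  e6 : tPhi P l p r y S = 0

theorem OnL.mem {M : IntermediateField ℂ N} (h : OnL P l al be p0 r0 s s' y k σ τ p r S)
    (hl : l ∈ M) (hal : al ∈ M) (hbe : be ∈ M) (hy : y ∈ M) (hk : k ∈ M) (hσ : σ ∈ M)
    (hτ : τ ∈ M) : p0 ∈ M ∧ r0 ∈ M := by
  have cL : Lf (dat P y) k σ τ ∈ M := by
    have e := map_Lf P M.val ⟨y, hy⟩ ⟨k, hk⟩ ⟨σ, hσ⟩ ⟨τ, hτ⟩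
    change _ = Lf (dat P y) k σ τ at e
    rw [← e]
    exact Subtype.property _
  have ch : (dat P y).h l ∈ M := by
    have e := map_h P M.val ⟨l, hl⟩ ⟨y, hy⟩
    change _ = (dat P y).h l at e
    rw [← e]
    exact Subtype.property _
  have mU : fU P y ∈ M := add_mem hy (alg_mem _)
  have mV : fV P y ∈ M := add_mem hy (alg_mem _)
  have hW : fU P y * fV P y * Lf (dat P y) k σ τ ≠ 0 := mul_ne_zero (mul_ne_zero h.hU h.hV) h.hL
  have mE : (dat P y).E p ∈ M := by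
    rw [eq_div_of_mul_eq hW h.e1]
    exact div_mem ch (mul_mem (mul_mem mU mV) cL)
  have mp : p ∈ M := by
    have e : p = ((dat P y).E p - algebraMap ℂ N P.P2 * fU P y) / fV P y := by
      rw [eq_div_iff h.hV]
      change p * fV P y = (fV P y * p + algebraMap ℂ N P.P2 * fU P y) -
        algebraMap ℂ N P.P2 * fU P y
      ring
    rw [e]
    exact div_mem (sub_mem mE (mul_mem (alg_mem _) mU)) mV
  have mr : r ∈ M := by
    have e : r = (k * (dat P y).E p - algebraMap ℂ N P.P0 * fV P y) / fU P y := by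
      rw [eq_div_iff h.hU, h.e2]
      change r * fU P y = (fU P y * r + algebraMap ℂ N P.P0 * fV P y) -
        algebraMap ℂ N P.P0 * fV P y
      ring
    rw [e]
    exact div_mem (sub_mem (mul_mem hk mE) (mul_mem (alg_mem _) mV)) mU
  constructor
  · have e : p0 = p - al * y := by rw [h.hp]; ring
    rw [e]
    exact sub_mem mp (mul_mem hal hy)
  · have e : r0 = r + be * y := by rw [h.hr]; ring
    rw [e]
    exact add_mem mr (mul_mem hbe hy)

variable {M : IntermediateField ℂ N} {V : Plc M N}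

/-- The limit along a place over `l = 0`. -/
theorem OnL.lim (h : OnL P l al be p0 r0 s s' y k σ τ p r S) {a b : M} (hl : V.Val l 0)
    (hal : V.Val al a) (hbe : V.Val be b) (hy : y ∈ M) (hk : k ∈ M) (hσ : σ ∈ M) (hτ : τ ∈ M) :
    ∃ (p' r' : M) (S' : N), LP P y k σ τ (p' : N) (r' : N) S' ∧
      ∃ s s' : M, ∀ z : M, tB P 0 (a * (z - ⟨y, hy⟩) + p') (-b * (z - ⟨y, hy⟩) + r') z =
        (s * z + s') ^ 2 := by
  obtain ⟨p', r', S', h1, h2, h3, h4⟩ := lim_pt hl hy hk hσ hτ h.hU h.hV h.hL h.e1 h.e2 h.e5 h.e6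
  exact ⟨p', r', S', h4, lim_dir hl hal hbe h1 h2 hy h.L h.hp h.hr⟩

end a

section b

variable {N : Type} [Field N] [Algebra ℂ N] [IsAlgClosed N] {P : Par}
  {l al be p0 r0 s s' y k σ τ p r S : N}

theorem OnL.zero (h : OnL P l al be p0 r0 s s' y k σ τ p r S) (hc : NC P) (hM1 : P.M1 = 0)
    (hl : Transcendental ℂ l) {F : IntermediateField ℂ N} (hF : ∀ u, IsAlgebraic F u → u ∈ F)
    (ht : al / be ∉ F) (hy : y ∈ F) (hk : k ∈ F) (hσ : σ ∈ F) (hτ : τ ∈ F) :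
    ∃ p' r' S' : N, LP P y k σ τ p' r' S' ∧
      algebraMap ℂ N P.Q1 * (dat P y).N p' r' = p' * (dat P y).J0 p' r' := by
  obtain ⟨M, V, hFM, hM, -, hV⟩ := H288.K2.exists_place hF ht (zero_mem F)
  obtain ⟨v1, v2, v3⟩ := node_zero hc hl h.L.node (V := V) hV
  obtain ⟨p', r', S', h1, s₁, s₂, h2⟩ := h.lim v1 v2 v3 (hFM hy) (hFM hk) (hFM hσ) (hFM hτ)
  refine ⟨p', r', S', h1, ?_⟩
  have h3 := congrArg M.val (dir_zero hM1 rfl rfl h2)
  rw [map_mul, map_mul, map_N, map_J0, AlgHom.commutes] at h3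
  exact h3

theorem OnL.inf (h : OnL P l al be p0 r0 s s' y k σ τ p r S) (hc : NC P) (hM1 : P.M1 = 0)
    (hl : Transcendental ℂ l) {F : IntermediateField ℂ N} (hF : ∀ u, IsAlgebraic F u → u ∈ F)
    (ht : al / be ∉ F) (hy : y ∈ F) (hk : k ∈ F) (hσ : σ ∈ F) (hτ : τ ∈ F) :
    ∃ p' r' S' : N, LP P y k σ τ p' r' S' ∧
      algebraMap ℂ N P.Q0 * (dat P y).N p' r' = r' * (dat P y).J0 p' r' := by
  have ht' : (al / be)⁻¹ ∉ F := fun h => ht (by rw [← inv_inv (al / be)]; exact inv_mem h)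
  obtain ⟨M, V, hFM, hM, -, hV⟩ := H288.K2.exists_place hF ht' (zero_mem F)
  obtain ⟨v1, v2, v3⟩ := node_inf hc hl h.L.node (V := V) hV
  obtain ⟨p', r', S', h1, s₁, s₂, h2⟩ := h.lim v1 v2 v3 (hFM hy) (hFM hk) (hFM hσ) (hFM hτ)
  refine ⟨p', r', S', h1, ?_⟩
  have h3 := congrArg M.val (dir_inf hM1 rfl rfl h2)
  rw [map_mul, map_mul, map_N, map_J0, AlgHom.commutes] at h3
  exact h3

theorem OnL.mid (h : OnL P l al be p0 r0 s s' y k σ τ p r S) (hc : NC P) (hQ0 : P.Q0 ≠ 0)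
    (hM1 : P.M1 = 0)
    (hl : Transcendental ℂ l) {F : IntermediateField ℂ N} (hF : ∀ u, IsAlgebraic F u → u ∈ F)
    (ht : al / be ∉ F) (hy : y ∈ F) (hk : k ∈ F) (hσ : σ ∈ F) (hτ : τ ∈ F) :
    ∃ p' r' S' : N, LP P y k σ τ p' r' S' ∧
      ((dat P y).J0 p' r' = 0 ∨ (algebraMap ℂ N (P.Q1 / (P.Q0 - P.Q1)) * r' +
      algebraMap ℂ N (P.Q0 / (P.Q0 - P.Q1)) * p') ^ 2 = algebraMap ℂ N (P.Q1 / (P.Q0 - P.Q1)) *
      algebraMap ℂ N (P.Q0 / (P.Q0 - P.Q1)) * ((dat P y).J0 p' r' +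
        4 * algebraMap ℂ N P.P0 * algebraMap ℂ N P.P2)) := by
  have hQ : P.Q0 - P.Q1 ≠ 0 := sub_ne_zero.2 hc.Q
  obtain ⟨M, V, hFM, hM, -, hV⟩ := H288.K2.exists_place hF ht (alg_mem (P.Q1 / P.Q0))
  obtain ⟨v1, v2, v3⟩ := node_mid hc hQ0 hl h.L.node (V := V) hV
  obtain ⟨p', r', S', h1, s₁, s₂, h2⟩ := h.lim v1 v2 v3 (hFM hy) (hFM hk) (hFM hσ) (hFM hτ)
  refine ⟨p', r', S', h1, ?_⟩
  have h3 := dir_three hM1 (by
    rw [← map_sub, ← map_one (algebraMap ℂ M)]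
    congr 1
    field_simp) (by
    rw [← map_mul, ← map_mul]
    congr 1
    field_simp) h2
  rcases h3 with h3 | h3
  · left
    have h4 := congrArg M.val h3
    rw [map_J0, map_zero] at h4
    exact h4
  · right
    have h4 := congrArg M.val h3
    rw [map_pow, map_add, map_mul, map_mul, map_mul, map_mul, map_add, map_mul, map_mul, map_J0,
      AlgHom.commutes, AlgHom.commutes, AlgHom.commutes, AlgHom.commutes, map_ofNat] at h4
    exact h4

theorem node_mem (hc : NC P) (hl : Transcendental ℂ l) (hn : IsNode P l al be) :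
    al / be ∈ cl0 {l} ∧ al ∈ cl0 {l} ∧ be ∈ cl0 {l} := by
  have h0 := tC_of_isNode hn
  have ht := mem_cl0_of_root hc hl h0
  obtain ⟨h1, h2⟩ := be_of_isNode hc hl hn
  have hq : tq P (al / be) ∈ cl0 {l} := by
    have e := map_tq P (cl0 ({l} : Set N)).val ⟨al / be, ht⟩
    change _ = tq P (al / be) at e
    rw [← e]
    exact Subtype.property _
  have hD : tD P (al / be) ∈ cl0 {l} := by
    have e := map_tD P (cl0 ({l} : Set N)).val ⟨al / be, ht⟩
    change _ = tD P (al / be) at e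
    rw [← e]
    exact Subtype.property _
  have hb : be ∈ cl0 {l} := by
    rw [h1]
    exact div_mem hq hD
  refine ⟨ht, ?_, hb⟩
  rw [← div_mul_cancel₀ al hn.be0]
  exact mul_mem ht hb

/-- **The coordinates `y` and `k` are independent.** -/
theorem ind_yk (hc : NC P) (hM1 : P.M1 = 0) (hQ0 : P.Q0 ≠ 0) (hQ1 : P.Q1 ≠ 0)
    (hl : Transcendental ℂ l) (L : NLine P l al be p0 r0 s s')
    (hgen : p0 ∉ cl0 {l} ∨ r0 ∉ cl0 {l}) (hp : p = al * y + p0) (hr : r = -be * y + r0)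
    (hS : S = s * y + s') (hU : fU P y ≠ 0) (hV : fV P y ≠ 0) (hE : (dat P y).E p ≠ 0)
    (hK : (dat P y).Kc l p r S ≠ 0) (hh : (dat P y).h l ≠ 0) (h0 : (dat P y).h 0 ≠ 0)
    (hΦ : tPhi P l p r y S = 0) : AlgebraicIndependent ℂ ![y, (dat P y).kap p r] := by
  have hchar : CharZero N := charZero_of_injective_algebraMap (algebraMap ℂ N).injective
  by_contra hdep
  have hB : S ^ 2 = tB P l p r y := by
    rw [hS, hp, hr, nline_eval L]
  have e1 := toS_E1 hU hV hE hK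
  have e2 := toS_E2 hU hV hE hK hΦ
  have e3 := toS_E3 hU hV hE hK hh hB hΦ
  have hx : toS P l p r y S 0 ≠ 0 := by
    change -(2 * (dat P y).E p ^ 2 * (dat P y).h l) / (dat P y).Kc l p r S ≠ 0
    exact div_ne_zero (neg_ne_zero.2 (mul_ne_zero (mul_ne_zero two_ne_zero
      (pow_ne_zero 2 hE)) hh)) hK
  have hLf := Lf_eq (dat P y) (l := l) (p := p) (r := r) (S := S) hU hV hE
  obtain ⟨x, hxd⟩ : ∃ x, x = toS P l p r y S 0 := ⟨_, rfl⟩
  obtain ⟨k, hk⟩ : ∃ k, k = toS P l p r y S 1 := ⟨_, rfl⟩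
  obtain ⟨σ, hσ⟩ : ∃ σ, σ = toS P l p r y S 3 := ⟨_, rfl⟩
  obtain ⟨τ, hτ⟩ : ∃ τ, τ = toS P l p r y S 4 := ⟨_, rfl⟩
  rw [← hxd, ← hk, ← hσ, ← hτ] at e1 e2 e3
  rw [← hxd] at hx
  have hk' : k = (dat P y).kap p r := hk
  have hσ' : σ = (dat P y).sg l p r S := hσ
  have hτ' : τ = (dat P y).ta l p r S := hτ
  rw [← hk'] at hdep
  rw [← hk', ← hσ', ← hτ'] at hLf
  have hL0 : Lf (dat P y) k σ τ ≠ 0 := by
    intro h
    rw [h, mul_zero, mul_zero] at hLf
    exact hh hLf.symm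
  have H : OnL P l al be p0 r0 s s' y k σ τ p r S :=
    ⟨L, hp, hr, hU, hV, hL0, hLf, by rw [hk']; exact div_mul_cancel₀ _ hE, hB, hΦ⟩
  obtain ⟨mt, mal, mbe⟩ := node_mem hc hl L.node
  have ml : l ∈ cl0 {l} := subset_cl0 {l} rfl
  have c1 : y ∈ cl0 {l} → k ∈ cl0 {l} → False := by
    intro hy hk
    obtain ⟨mσ, mτ⟩ := mem_of_yk hc.P0 (cl0_closed {l}) hU hV hx e1 e2 e3 hy hk
    obtain ⟨m1, m2⟩ := H.mem ml mal mbe hy hk mσ mτ
    rcases hgen with h | h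
    · exact h m1
    · exact h m2
  have htr := root_tr hc hl (tC_of_isNode L.node)
  have hle : cl0 {al / be} ≤ cl0 {l} := by
    refine cl0_le (cl0_closed _) ?_
    rintro _ rfl
    exact mt
  have ht1 : al / be ∉ cl0 {y, k} := by
    intro hm
    obtain ⟨h1, h2⟩ := dep_le hdep htr hm
    exact c1 (hle h1) (hle h2)
  have hF := cl0_closed ({y, k} : Set N)
  have my : y ∈ cl0 {y, k} := subset_cl0 _ (Or.inl rfl)
  have mk' : k ∈ cl0 {y, k} := subset_cl0 _ (Or.inr rfl)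
  obtain ⟨mσ, mτ⟩ := mem_of_yk hc.P0 hF hU hV hx e1 e2 e3 my mk'
  obtain ⟨p1, r1, S1, H1, d1⟩ := H.zero hc hM1 hl hF ht1 my mk' mσ mτ
  obtain ⟨p2, r2, S2, H2, d2⟩ := H.inf hc hM1 hl hF ht1 my mk' mσ mτ
  obtain ⟨p3, r3, S3, H3, d3⟩ := H.mid hc hQ0 hM1 hl hF ht1 my mk' mσ mτ
  obtain ⟨rfl, rfl⟩ := H1.unique H2 hU hV hL0
  obtain ⟨rfl, rfl⟩ := H1.unique H3 hU hV hL0
  obtain ⟨c2, c3⟩ := const_of (cl0_closed ({l} : Set N)) hM1 hc.P0 hc.P2 hQ0 hQ1 hc.Q hU hV h0 H1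
    d1 d2 d3
  exact c1 c2 c3

end b

end Vale.Agent.P297.H721.G9
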