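import Vale.Agent.P297.H55.Z2.TOne
import Vale.Agent.P297.H65.Z2.PlaneMap
import Vale.Agent.P297.H288.K2.Place

/-!
General numerical Godeaux surfaces with torsion of order two: limits of the lines through the
nodes along places.
-/

set_option linter.unusedSectionVars false
set_option linter.style.haveILetI false

open IntermediateField Polynomial

namespace Vale.Agent.P297.H721.G9

open Vale.Agent.P297 Vale.Agent.P297.Gen Vale.Agent.P297.H72 Vale.Agent.P297.H637
open Vale.Agent.P297.H160.Z2Irr Vale.Agent.P297.Z2 Vale.Agent.P297.H55Z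

section plc

variable {N N₁ : Type} [Field N] [Field N₁] [Algebra N N₁] {V : Plc N N₁}

/-- The roots of a polynomial with a unit as its leading coefficient are finite. -/
theorem finite_of_top {f : N₁[X]} {g : N[X]} (h : PVal V f g) {n : ℕ} (hf : f.natDegree ≤ n)
    (hg : g.coeff n ≠ 0) {x : N₁} (hx : f.eval x = 0) : ∃ a, V.Val x a := by
  by_cases hx0 : x = 0
  · exact ⟨0, by rw [hx0]; exact V.val_zero⟩
  rcases V.val_or x with h1 | h1
  · exact h1
  · exfalso
    have e : ∑ i ∈ Finset.range (n + 1), f.coeff i * (x⁻¹) ^ (n - i) = 0 := by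
      rw [eval_eq_sum_range' (Nat.lt_succ_of_le hf)] at hx
      have h2 := congrArg (fun z => z * (x⁻¹) ^ n) hx
      simp only [zero_mul, Finset.sum_mul] at h2
      rw [← h2]
      refine Finset.sum_congr rfl fun i hi => ?_
      have hi' : i ≤ n := Nat.lt_succ_iff.1 (Finset.mem_range.1 hi)
      have h3 : (x⁻¹) ^ n = (x⁻¹) ^ (n - i) * (x⁻¹) ^ i := by
        rw [← pow_add, Nat.sub_add_cancel hi']
      rw [h3]
      have h4 : x ^ i * (x⁻¹) ^ i = 1 := by
        rw [← mul_pow, mul_inv_cancel₀ hx0, one_pow]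
      linear_combination (-(f.coeff i * (x⁻¹) ^ (n - i))) * h4
    have h2 : V.Val (∑ i ∈ Finset.range (n + 1), f.coeff i * (x⁻¹) ^ (n - i))
        (∑ i ∈ Finset.range (n + 1), g.coeff i * 0 ^ (n - i)) :=
      Plc.Val.sum _ fun i _ => (h i).mul (h1.pow _)
    rw [e] at h2
    apply hg
    have h3 : ∑ i ∈ Finset.range (n + 1), g.coeff i * (0 : N) ^ (n - i) = g.coeff n := by
      rw [Finset.sum_eq_single n]
      · rw [Nat.sub_self, pow_zero, mul_one]
      · intro i hi hin
        have hi' : i ≤ n := Nat.lt_succ_iff.1 (Finset.mem_range.1 hi)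
        rw [zero_pow (by omega), mul_zero]
      · intro h4
        exact absurd (Finset.mem_range.2 (Nat.lt_succ_self n)) h4
    rw [h3] at h2
    exact h2.unique V.val_zero

theorem fin_of_sq {x : N₁} {a : N} (h : V.Val (x ^ 2) a) : ∃ b, V.Val x b := by
  rcases V.val_or x with h1 | h1
  · exact h1
  · by_cases hx : x = 0
    · exact ⟨0, by rw [hx]; exact V.val_zero⟩
    · exfalso
      have h2 := (h1.pow 2).mul h
      rw [← mul_pow, inv_mul_cancel₀ hx, one_pow] at h2
      have h3 := h2.unique V.val_one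
      simp at h3

end plc

section line

variable {N N₁ : Type} [Field N] [Algebra ℂ N] [Field N₁] [Algebra ℂ N₁]
  [Algebra N N₁] [IsScalarTower ℂ N N₁] {V : Plc N N₁} {P : Par}
  {l₁ al₁ be₁ p₁ r₁ y₁ s₁ s₁' : N₁} {l al be p r y : N}

theorem val_tB (hl : V.Val l₁ l) (hp : V.Val p₁ p) (hr : V.Val r₁ r) (hy : V.Val y₁ y) :
    V.Val (tB P l₁ p₁ r₁ y₁) (tB P l p r y) := by
  have h := val_pr (tB P (mk hl) (mk hp) (mk hr) (mk hy))
  rwa [map_tB, map_tB] at h

theorem nline_eval (L : NLine P l₁ al₁ be₁ p₁ r₁ s₁ s₁') (z : N₁) :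
    tB P l₁ (al₁ * z + p₁) (-be₁ * z + r₁) z = (s₁ * z + s₁') ^ 2 := by
  have h := congrArg (Polynomial.eval z) L.eq
  rw [tB_line] at h
  rw [h]
  simp

/-- **The limit of a line through a node.** -/
theorem lim_line (hl : V.Val l₁ l) (hal : V.Val al₁ al) (hbe : V.Val be₁ be) (hp : V.Val p₁ p)
    (hr : V.Val r₁ r) (L : NLine P l₁ al₁ be₁ p₁ r₁ s₁ s₁') :
    ∃ s s' : N, V.Val s₁ s ∧ V.Val s₁' s' ∧
      ∀ z : N, tB P l (al * z + p) (-be * z + r) z = (s * z + s') ^ 2 := by
  have key : ∀ z : N, V.Val ((s₁ * algebraMap N N₁ z + s₁') ^ 2)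
      (tB P l (al * z + p) (-be * z + r) z) := by
    intro z
    rw [← nline_eval L]
    have hz : V.Val (algebraMap N N₁ z) z := V.val_const z
    exact val_tB hl ((hal.mul hz).add hp) ((hbe.neg.mul hz).add hr) hz
  obtain ⟨a0, h0⟩ := fin_of_sq (key 0)
  obtain ⟨a1, h1⟩ := fin_of_sq (key 1)
  rw [map_zero, mul_zero, zero_add] at h0
  rw [map_one, mul_one] at h1
  have hs : V.Val s₁ (a1 - a0) := by
    have h2 := h1.sub h0
    rwa [add_sub_cancel_right] at h2
  refine ⟨a1 - a0, a0, hs, h0, fun z => ?_⟩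
  exact (key z).unique (((hs.mul (V.val_const z)).add h0).pow 2)

end line

end Vale.Agent.P297.H721.G9
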