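import Mathlib

/-!
The general numerical Godeaux surface with `H_1` of order two: the equations over a fixed point `y`
of the bicanonical pencil, and the dictionary between the tricanonical coordinates `(k, s, t)` and
the coordinates `(p, r, Σ)` of the quartic double solid `T_l`.
-/

set_option linter.unusedSectionVars false

namespace Vale.Agent.P297.H721

/-- The local data over `y`: `U = y + u`, `V = y + v`, `Y = y + c₁`, `ν = n - y²` and the
constants. -/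
structure Loc (R : Type*) where
  U : R
  V : R
  Y : R
  ν : R
  P0 : R
  P2 : R
  Q0 : R
  Q1 : R
  m : R

namespace Loc

section ring

variable {R : Type*} [CommRing R] (D : Loc R)

def a : R := 2 * D.Y + D.Q0

def c : R := 2 * D.Y + D.Q1

def g1 : R := D.U * D.V * D.ν + D.P0 * D.V ^ 3 + D.P2 * D.U ^ 3

def w : R := D.Y * D.U * D.V - D.P2 * D.U ^ 2 - D.P0 * D.V ^ 2

def h0 : R := D.w ^ 2 - D.Q0 * D.P2 * D.U ^ 3 * D.V - D.Q1 * D.P0 * D.V ^ 3 * D.U -
  D.m * D.U ^ 2 * D.V ^ 2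

def h (l : R) : R := D.h0 + l * D.U * D.V * D.g1

/-- the cubic form `t r² - s p²` -/
def C (k s t : R) : R := t * k ^ 2 - s

/-- the linear form -/
def L (k s t : R) : R := D.U ^ 2 * t - D.V ^ 2 * s - D.a * D.U - D.c * D.V * k

def D2 (k s t : R) : R := D.U * D.V * (s - k * t + k) + (D.P0 * D.V + D.P2 * D.U) * k -
  D.P2 * D.U * k ^ 2 - D.P0 * D.V

def D3 (k s t : R) : R := D.U * D.V * (D.U * s + 2 * D.P0 * k) * (D.V * t - 2 * D.P2) +
  (D.P0 * D.V + D.P2 * D.U * k) ^ 2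

/-- the first equation of the surface -/
def eA (k s t : R) : R := D.g1 * C k s t + D.D2 k s t * D.L k s t

/-- the second equation of the surface -/
def eB (k s t : R) : R := D.D3 k s t * D.L k s t - D.h0 * C k s t

/-- the equation of the threefold `T_l` -/
def eT (l k s t : R) : R := (D.D3 k s t - l * D.U * D.V * D.D2 k s t) * D.L k s t -
  D.h l * C k s t

theorem eT_eq (l k s t : R) : D.eT l k s t = D.eB k s t - l * D.U * D.V * D.eA k s t := by
  unfold eT eB eA h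
  ring

def N (p r : R) : R := p * r - D.P0 * D.P2

def E (p : R) : R := D.V * p + D.P2 * D.U

def F (r : R) : R := D.U * r + D.P0 * D.V

def J0 (p r : R) : R := (p + r + D.Y) ^ 2 + D.Q0 * p + D.Q1 * r - D.m

def J1 (p r : R) : R := D.U * p + D.V * r - D.ν

def K (l p r : R) : R := D.J0 p r - l * D.J1 p r - 2 * D.N p r

/-- the branch quartic -/
def B (l p r : R) : R := D.K l p r ^ 2 -
  4 * (D.N p r ^ 2 - l * D.N p r * (D.E p + D.F r) + (l ^ 2 - l) * D.E p * D.F r)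

def al (l p : R) : R := D.g1 * (p - l * D.U) + (D.P2 * D.U ^ 2 * D.ν + D.P0 * D.P2 * D.U * D.V ^ 2 -
  (D.Y ^ 2 - D.m + 2 * D.P0 * D.P2) * D.U ^ 2 * D.V - D.P0 ^ 2 * D.V ^ 3 + D.a * D.P2 * D.U ^ 3 +
  D.c * D.P0 * D.U * D.V ^ 2)

def be (l r : R) : R := D.g1 * (r - l * D.V) + (D.P0 * D.V ^ 2 * D.ν + D.P0 * D.P2 * D.V * D.U ^ 2 -
  (D.Y ^ 2 - D.m + 2 * D.P0 * D.P2) * D.V ^ 2 * D.U - D.P2 ^ 2 * D.U ^ 3 + D.c * D.P0 * D.V ^ 3 +
  D.a * D.P2 * D.V * D.U ^ 2)

/-- **The equation of the surface in the coordinates of the double solid.** -/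
def Phi (l p r S : R) : R := D.al l p * D.U * D.E p * (D.K l p r + S) +
  D.be l r * D.V * D.F r * (D.K l p r - S) - 4 * D.g1 * D.N p r * D.E p * D.F r +
  2 * D.h l * D.N p r * (D.E p + D.F r) +
  2 * l * D.E p * D.F r * (D.g1 * (D.E p + D.F r) - 2 * D.h l) + 2 * D.h l * D.E p * D.F r

/-- `-2 U V E s` -/
def Sn (l p r S : R) : R := D.U ^ 2 * (D.K l p r + S) -
  2 * (D.F r - 2 * D.P0 * D.V - l * D.U * D.V) * D.F r

/-- `2 U V E t` -/
def Tn (l p r S : R) : R := D.V ^ 2 * (D.K l p r - S) -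
  2 * (D.E p - 2 * D.P2 * D.U - l * D.U * D.V) * D.E p

theorem V_al (l p : R) : D.V * D.al l p = D.g1 * D.E p - D.h l := by
  unfold al E h h0 w g1 a c
  ring

theorem U_be (l r : R) : D.U * D.be l r = D.g1 * D.F r - D.h l := by
  unfold be F h h0 w g1 a c
  ring

theorem EF_N (p r : R) : D.E p * D.F r - D.P2 * D.U * D.F r - D.P0 * D.V * D.E p =
    D.U * D.V * D.N p r := by
  unfold E F N
  ring

/-- the linear form on the double solid -/
theorem L_id (l p r S : R) : D.U ^ 2 * D.Tn l p r S + D.V ^ 2 * D.Sn l p r S -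
    2 * D.U * D.V * (D.a * D.U * D.E p + D.c * D.V * D.F r) = 2 * D.h l := by
  unfold Tn Sn E F h h0 w g1 a c K J0 J1 N
  ring

end ring

section field

variable {F' : Type*} [Field F'] [NeZero (2 : F')] (D : Loc F')

theorem L_of {l p r S k s t : F'} (hk : k * D.E p = D.F r)
    (hs : 2 * D.U * D.V * D.E p * s = -D.Sn l p r S) (ht : 2 * D.U * D.V * D.E p * t = D.Tn l p r S) :
    D.U * D.V * D.E p * D.L k s t = D.h l := by
  have h2 : (2 : F') ≠ 0 := NeZero.ne _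
  apply mul_left_cancel₀ h2
  rw [← D.L_id l p r S]
  unfold L
  linear_combination D.U ^ 2 * ht - D.V ^ 2 * hs - 2 * D.U * D.V ^ 2 * D.c * hk

/-- **The equation of `T_l` from the double solid.** -/
theorem eT_of {l p r S k s t : F'} (hU : D.U ≠ 0) (hV : D.V ≠ 0) (hE : D.E p ≠ 0)
    (hk : k * D.E p = D.F r) (hs : 2 * D.U * D.V * D.E p * s = -D.Sn l p r S)
    (ht : 2 * D.U * D.V * D.E p * t = D.Tn l p r S) (hS : S ^ 2 = D.B l p r) :
    D.eT l k s t = 0 := by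
  have hL := L_of D hk hs ht
  have h2 : (2 : F') ≠ 0 := NeZero.ne _
  obtain ⟨W, hW⟩ : ∃ W, W = 2 * D.U * D.V * D.E p := ⟨_, rfl⟩
  have hW0 : W ≠ 0 := by
    rw [hW]
    exact mul_ne_zero (mul_ne_zero (mul_ne_zero h2 hU) hV) hE
  have hk' : W * k = 2 * D.U * D.V * D.F r := by
    rw [hW]
    linear_combination 2 * D.U * D.V * hk
  have hL' : W * D.L k s t = 2 * D.h l := by
    rw [hW]
    linear_combination 2 * hL
  have key : 2 * (D.U * D.V * (-D.U * D.Sn l p r S + 2 * D.P0 * (2 * D.U * D.V * D.F r)) *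
      (D.V * D.Tn l p r S - 2 * D.P2 * W) +
      (D.P0 * D.V * W + D.P2 * D.U * (2 * D.U * D.V * D.F r)) ^ 2 -
      l * D.U * D.V * (D.U * D.V * (-D.Sn l p r S * W -
        (2 * D.U * D.V * D.F r) * D.Tn l p r S + (2 * D.U * D.V * D.F r) * W) +
        (D.P0 * D.V + D.P2 * D.U) * (2 * D.U * D.V * D.F r) * W -
        D.P2 * D.U * (2 * D.U * D.V * D.F r) ^ 2 - D.P0 * D.V * W ^ 2)) -
      (D.Tn l p r S * (2 * D.U * D.V * D.F r) ^ 2 + D.Sn l p r S * W ^ 2) = 0 := by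
    have h0 : 2 * D.U ^ 4 * D.V ^ 4 * (S ^ 2 - D.B l p r) = 0 := by
      rw [hS, sub_self, mul_zero]
    rw [← h0, hW]
    unfold Tn Sn B E F N
    ring
  rw [← hW] at hs ht
  rw [← hk', ← ht, show D.Sn l p r S = -(W * s) by rw [hs, neg_neg]] at key
  have e : W ^ 3 * D.eT l k s t = 0 := by
    unfold eT C D2 D3
    linear_combination (W ^ 2 * (D.U * D.V * (D.U * s + 2 * D.P0 * k) * (D.V * t - 2 * D.P2) +
      (D.P0 * D.V + D.P2 * D.U * k) ^ 2 - l * D.U * D.V * (D.U * D.V * (s - k * t + k) +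
      (D.P0 * D.V + D.P2 * D.U) * k - D.P2 * D.U * k ^ 2 - D.P0 * D.V))) * hL' + D.h l * key
  exact (mul_eq_zero.1 e).resolve_left (pow_ne_zero 3 hW0)

/-- **The first equation of the surface on the double solid.** -/
theorem eA_of {l p r S k s t : F'} (hk : k * D.E p = D.F r)
    (hs : 2 * D.U * D.V * D.E p * s = -D.Sn l p r S)
    (ht : 2 * D.U * D.V * D.E p * t = D.Tn l p r S) :
    2 * D.U * D.V * D.E p ^ 3 * D.eA k s t = D.U * D.V * D.Phi l p r S := by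
  have hL := L_of D hk hs ht
  have e1 : D.g1 * (D.F r ^ 2 * D.Tn l p r S + D.E p ^ 2 * D.Sn l p r S) + D.h l *
      (-(D.E p * D.Sn l p r S) - D.F r * D.Tn l p r S + 2 * D.U * D.V * D.E p * D.F r +
        2 * (D.P0 * D.V + D.P2 * D.U) * D.E p * D.F r - 2 * D.P2 * D.U * D.F r ^ 2 -
        2 * D.P0 * D.V * D.E p ^ 2) = D.U * D.V * D.Phi l p r S := by
    unfold Phi Sn Tn
    linear_combination (-(D.U ^ 2 * D.E p * (D.K l p r + S))) * D.V_al l p -
      D.V ^ 2 * D.F r * (D.K l p r - S) * D.U_be l r +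
      (-4 * D.g1 * D.E p * D.F r + 2 * D.h l * (D.E p + D.F r)) * D.EF_N p r
  rw [← e1]
  unfold eA C
  have hD : 2 * D.E p ^ 2 * D.D2 k s t = -(D.E p * D.Sn l p r S) - D.F r * D.Tn l p r S +
      2 * D.U * D.V * D.E p * D.F r + 2 * (D.P0 * D.V + D.P2 * D.U) * D.E p * D.F r -
      2 * D.P2 * D.U * D.F r ^ 2 - 2 * D.P0 * D.V * D.E p ^ 2 := by
    unfold D2
    linear_combination D.E p * hs - k * D.E p * ht + (-D.Tn l p r S + 2 * D.U * D.V * D.E p +
      2 * (D.P0 * D.V + D.P2 * D.U) * D.E p - 2 * D.P2 * D.U * (k * D.E p + D.F r)) * hk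
  rw [← hD]
  linear_combination D.g1 * (k * D.E p) ^ 2 * ht + D.g1 * D.Tn l p r S * (k * D.E p + D.F r) * hk -
    D.g1 * D.E p ^ 2 * hs + 2 * D.E p ^ 2 * D.D2 k s t * hL

/-- The equations of the surface from those of the double solid. -/
theorem eqs_of {l p r S k s t : F'} (hU : D.U ≠ 0) (hV : D.V ≠ 0) (hE : D.E p ≠ 0)
    (hk : k * D.E p = D.F r) (hs : 2 * D.U * D.V * D.E p * s = -D.Sn l p r S)
    (ht : 2 * D.U * D.V * D.E p * t = D.Tn l p r S) (hS : S ^ 2 = D.B l p r)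
    (hΦ : D.Phi l p r S = 0) : D.eA k s t = 0 ∧ D.eB k s t = 0 := by
  have h2 : (2 : F') ≠ 0 := NeZero.ne _
  have h1 := eA_of D hk hs ht
  rw [hΦ, mul_zero] at h1
  have hA : D.eA k s t = 0 := (mul_eq_zero.1 h1).resolve_left
    (mul_ne_zero (mul_ne_zero (mul_ne_zero h2 hU) hV) (pow_ne_zero 3 hE))
  refine ⟨hA, ?_⟩
  have h3 := eT_of D hU hV hE hk hs ht hS
  rw [eT_eq, hA, mul_zero, sub_zero] at h3
  exact h3

/-- **From a point of `T_l` in the tricanonical coordinates to the double solid.** -/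
theorem to_solid {l k s t : F'} (hU : D.U ≠ 0) (hV : D.V ≠ 0) (hL : D.L k s t ≠ 0) (hh : D.h l ≠ 0)
    (hT : D.eT l k s t = 0) : ∃ p r S : F', D.E p * (D.U * D.V * D.L k s t) = D.h l ∧
      k * D.E p = D.F r ∧ 2 * D.U * D.V * D.E p * s = -D.Sn l p r S ∧
      2 * D.U * D.V * D.E p * t = D.Tn l p r S ∧ S ^ 2 = D.B l p r := by
  have h2 : (2 : F') ≠ 0 := NeZero.ne _
  obtain ⟨e, he⟩ : ∃ e, e = D.h l / (D.U * D.V * D.L k s t) := ⟨_, rfl⟩
  have hUVL : D.U * D.V * D.L k s t ≠ 0 := mul_ne_zero (mul_ne_zero hU hV) hL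
  obtain ⟨p, hp⟩ : ∃ p, p = (e - D.P2 * D.U) / D.V := ⟨_, rfl⟩
  obtain ⟨r, hr⟩ : ∃ r, r = (k * e - D.P0 * D.V) / D.U := ⟨_, rfl⟩
  have hE : D.E p = e := by
    rw [hp]
    unfold E
    field_simp
    ring
  have hF : D.F r = k * e := by
    rw [hr]
    unfold F
    field_simp
    ring
  have hEL : D.E p * (D.U * D.V * D.L k s t) = D.h l := by
    rw [hE, he, div_mul_cancel₀ _ hUVL]
  have hE0 : D.E p ≠ 0 := by
    intro h0
    rw [h0, zero_mul] at hEL
    exact hh hEL.symm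
  obtain ⟨S, hS⟩ : ∃ S, S = (2 * (D.F r - 2 * D.P0 * D.V - l * D.U * D.V) * D.F r -
    2 * D.U * D.V * D.E p * s) / D.U ^ 2 - D.K l p r := ⟨_, rfl⟩
  have hk : k * D.E p = D.F r := by rw [hE, hF]
  have hs : 2 * D.U * D.V * D.E p * s = -D.Sn l p r S := by
    rw [hS]
    unfold Sn
    field_simp
    ring
  have ht : 2 * D.U * D.V * D.E p * t = D.Tn l p r S := by
    have e1 := D.L_id l p r S
    have e2 : D.U ^ 2 * (2 * D.U * D.V * D.E p * t - D.Tn l p r S) = 0 := by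
      have e3 : D.L k s t = D.U ^ 2 * t - D.V ^ 2 * s - D.a * D.U - D.c * D.V * k := rfl
      rw [e3] at hEL
      linear_combination 2 * hEL - e1 + D.V ^ 2 * hs + 2 * D.U * D.V ^ 2 * D.c * hk
    exact sub_eq_zero.1 ((mul_eq_zero.1 e2).resolve_left (pow_ne_zero 2 hU))
  refine ⟨p, r, S, hEL, hk, hs, ht, ?_⟩
  obtain ⟨W, hW⟩ : ∃ W, W = 2 * D.U * D.V * D.E p := ⟨_, rfl⟩
  have hk' : W * k = 2 * D.U * D.V * D.F r := by
    rw [hW]
    linear_combination 2 * D.U * D.V * hk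
  have hL' : W * D.L k s t = 2 * D.h l := by
    rw [hW]
    linear_combination 2 * hEL
  have key : 2 * (D.U * D.V * (-D.U * D.Sn l p r S + 2 * D.P0 * (2 * D.U * D.V * D.F r)) *
      (D.V * D.Tn l p r S - 2 * D.P2 * W) +
      (D.P0 * D.V * W + D.P2 * D.U * (2 * D.U * D.V * D.F r)) ^ 2 -
      l * D.U * D.V * (D.U * D.V * (-D.Sn l p r S * W -
        (2 * D.U * D.V * D.F r) * D.Tn l p r S + (2 * D.U * D.V * D.F r) * W) +
        (D.P0 * D.V + D.P2 * D.U) * (2 * D.U * D.V * D.F r) * W -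
        D.P2 * D.U * (2 * D.U * D.V * D.F r) ^ 2 - D.P0 * D.V * W ^ 2)) -
      (D.Tn l p r S * (2 * D.U * D.V * D.F r) ^ 2 + D.Sn l p r S * W ^ 2) =
      2 * D.U ^ 4 * D.V ^ 4 * (S ^ 2 - D.B l p r) := by
    rw [hW]
    unfold Tn Sn B E F N
    ring
  rw [← hW] at hs ht
  rw [← hk', ← ht, show D.Sn l p r S = -(W * s) by rw [hs, neg_neg]] at key
  have e : D.h l * (2 * D.U ^ 4 * D.V ^ 4 * (S ^ 2 - D.B l p r)) = W ^ 3 * D.eT l k s t := by
    rw [← key]
    unfold eT C D2 D3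
    linear_combination -((W ^ 2 * (D.U * D.V * (D.U * s + 2 * D.P0 * k) * (D.V * t - 2 * D.P2) +
      (D.P0 * D.V + D.P2 * D.U * k) ^ 2 - l * D.U * D.V * (D.U * D.V * (s - k * t + k) +
      (D.P0 * D.V + D.P2 * D.U) * k - D.P2 * D.U * k ^ 2 - D.P0 * D.V))) * hL')
  rw [hT, mul_zero] at e
  have e4 := (mul_eq_zero.1 e).resolve_left hh
  exact sub_eq_zero.1 ((mul_eq_zero.1 e4).resolve_left
    (mul_ne_zero (mul_ne_zero h2 (pow_ne_zero 4 hU)) (pow_ne_zero 4 hV)))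

/-- On the surface the equation `Phi` holds. -/
theorem Phi_of {l p r S k s t : F'} (hU : D.U ≠ 0) (hV : D.V ≠ 0) (hk : k * D.E p = D.F r)
    (hs : 2 * D.U * D.V * D.E p * s = -D.Sn l p r S)
    (ht : 2 * D.U * D.V * D.E p * t = D.Tn l p r S) (hA : D.eA k s t = 0) :
    D.Phi l p r S = 0 := by
  have h1 := eA_of D hk hs ht
  rw [hA, mul_zero] at h1
  exact (mul_eq_zero.1 h1.symm).resolve_left (mul_ne_zero hU hV)

end field

end Loc

end Vale.Agent.P297.H721
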