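import Vale.Agent.P297.H721.Z2.IndYK

/-!
General numerical Godeaux surfaces with torsion of order two: the points of the surface on the
general line through a node, along the place `t → 0`.
-/

set_option linter.unusedSectionVars false
set_option linter.unusedVariables false
set_option linter.style.haveILetI false

open IntermediateField Polynomial

namespace Vale.Agent.P297.H721.G9

open Vale.Agent.P297 Vale.Agent.P297.Gen Vale.Agent.P297.H72 Vale.Agent.P297.H637
open Vale.Agent.P297.H160.Z2Irr Vale.Agent.P297.Z2 Vale.Agent.P297.H55Z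
open Vale.Agent.P297.H65 (planeCub Cub)

/-- the points on the lines over `l = 0` in the direction `(0, 1)` -/
def Z0S (P : Par) : Prop :=
  ∀ (N : Type) [Field N] [Algebra ℂ N] [IsAlgClosed N] (p0 W s s' y : N), Transcendental ℂ W →
    (∀ z : N, tB P 0 p0 (W - p0 - z) z = (s * z + s') ^ 2) →
    tPhi P (C 0 : N[X]) (C 0 * X + C p0) (C (-1) * X + C (W - p0)) X (C s * X + C s') ≠ 0 →
    tPhi P 0 p0 (W - p0 - y) y (s * y + s') = 0 →
    fU P y ≠ 0 ∧ fV P y ≠ 0 ∧ (dat P y).E p0 ≠ 0 ∧ (dat P y).h 0 ≠ 0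

section a

variable {N : Type} [Field N] [Algebra ℂ N] [IsAlgClosed N] {P : Par} {l al be : N}

theorem other_nodes (hc : NC P) (hl : Transcendental ℂ l) (hn : IsNode P l al be) :
    ∃ al₂ be₂ al₃ be₃ : N, IsNode P l al₂ be₂ ∧ IsNode P l al₃ be₃ ∧ al ≠ al₂ ∧ al ≠ al₃ ∧
      al₂ ≠ al₃ := by
  obtain ⟨t, H⟩ := exists_tri hc hl
  obtain ⟨i, h1, h2, h3⟩ := H.exists_eq hc hl hn
  have key : ∀ j k : Fin 3, j ≠ k → nal P (t j) ≠ nal P (t k) := by
    intro j k hjk he
    apply hjk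
    apply H.inj
    have n1 := H.isNode hc hl j
    have n2 := H.isNode hc hl k
    have hb : nbe P (t j) = nbe P (t k) := by
      linear_combination n1.sub - n2.sub + he
    have e1 : nal P (t j) = t j * nbe P (t j) := rfl
    have e2 : nal P (t k) = t k * nbe P (t k) := rfl
    rw [e1, e2, hb] at he
    exact mul_right_cancel₀ n2.be0 he
  obtain ⟨j, k, hij, hik, hjk⟩ : ∃ j k : Fin 3, i ≠ j ∧ i ≠ k ∧ j ≠ k := by
    fin_cases i
    · exact ⟨1, 2, by decide, by decide, by decide⟩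
    · exact ⟨0, 2, by decide, by decide, by decide⟩
    · exact ⟨0, 1, by decide, by decide, by decide⟩
  refine ⟨_, _, _, _, H.isNode hc hl j, H.isNode hc hl k, ?_, ?_, key j k hjk⟩
  · rw [h1]
    exact key i j hij
  · rw [h1]
    exact key i k hik

/-- the leading coefficient of the discriminant for `l = 0`, `al = 0` -/
theorem lead_zero {k : Type*} [Field k] [Algebra ℂ k] (hM1 : P.M1 = 0) (W : k) :
    (planeCub P (0 : k) W).lead 0 = 16 * algebraMap ℂ k P.Q0 ^ 2 := by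
  unfold Cub.lead planeCub H65.rawCub H65.jc1 H65.jc2
  dsimp only
  rw [hM1, map_zero]
  ring

theorem mem_swap {t W : N} (ht : Transcendental ℂ t) (h : t ∈ cl0 {W}) : W ∈ cl0 {t} := by
  have hE := cl0_closed (∅ : Set N)
  have hle : clo (cl0 (∅ : Set N)) {t} ≤ cl0 {t} :=
    clo_le (cl0_closed _) (cl0_empty_le _) (subset_cl0 _)
  refine hle (exchange hE ?_ (notMem_empty_of_tr ht))
  exact cl0_le (clo_closed _ _) (subset_clo _ _) h

variable {M : IntermediateField ℂ N}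

theorem algClosed_of (hM : ∀ u, IsAlgebraic M u → u ∈ M) : IsAlgClosed M := by
  refine IsAlgClosed.of_exists_root _ fun p _ hirr => ?_
  obtain ⟨r, hr⟩ := exists_root_mem M hM p hirr.natDegree_pos
  exact ⟨r, hr⟩

variable {p0 r0 s s' y : N}

/-- **The points of the surface on the general line through a node are not in the bad loci.** -/
theorem nondeg (hZ : Z0S P) (hc : NC P) (hM1 : P.M1 = 0) (hQ0 : P.Q0 ≠ 0)
    (hl : Transcendental ℂ l) (L : NLine P l al be p0 r0 s s')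
    (hgen : p0 ∉ cl0 {l} ∨ r0 ∉ cl0 {l})
    (hΦ : tPhi P l (al * y + p0) (-be * y + r0) y (s * y + s') = 0) :
    fU P y ≠ 0 ∧ fV P y ≠ 0 ∧ (dat P y).E (al * y + p0) ≠ 0 ∧ (dat P y).h l ≠ 0 ∧
      (dat P y).h 0 ≠ 0 := by
  have hchar : CharZero N := charZero_of_injective_algebraMap (algebraMap ℂ N).injective
  obtain ⟨mt, mal, mbe⟩ := node_mem hc hl L.node
  have htr := root_tr hc hl (tC_of_isNode L.node)
  obtain ⟨al₂, be₂, al₃, be₃, n₂, n₃, h12, h13, h23⟩ := other_nodes hc hl L.node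
  have hW := H65.W_notMem hM1 hc.Q L n₂ n₃ h12 h13 h23 mal hgen
  obtain ⟨W, hWd⟩ : ∃ W, W = p0 + r0 := ⟨_, rfl⟩
  have hlead := H65.lead_ne hM1 hc.Q n₂ L.node n₃ h12.symm h23 h13 W
  have hdisc := (H65.disc_iff hM1 L.node p0 r0).2 (L.disc hM1)
  rw [← hWd] at hW hdisc
  have htW : al / be ∉ cl0 {W} := by
    intro h
    apply hW
    refine cl0_le (cl0_closed _) ?_ (mem_swap htr h)
    rintro _ rfl
    exact mt
  obtain ⟨M, V, hFM, hM, -, hV⟩ := H288.K2.exists_place (cl0_closed ({W} : Set N)) htW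
    (zero_mem _)
  obtain ⟨v1, v2, v3⟩ := node_zero hc hl L.node (V := V) hV
  have hWM : W ∈ M := hFM (subset_cl0 {W} rfl)
  obtain ⟨W', hW'⟩ : ∃ W' : M, W' = ⟨W, hWM⟩ := ⟨_, rfl⟩
  have vW : V.Val W W' := by
    rw [hW']
    exact V.val_const (⟨W, hWM⟩ : M)
  have hWtr : Transcendental ℂ W := tr_of_notMem hW
  have hWtr' : Transcendental ℂ W' := by
    intro h
    apply hWtr
    have h1 := h.algebraMap (A := N)
    rw [hW'] at h1
    exact h1
  haveI : IsAlgClosed M := algClosed_of hM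
  -- `p0` is finite
  have hpv : PVal V ((planeCub P l W).disc al) ((planeCub P (0 : M) W').disc 0) := by
    have h := pval_pr ((planeCub P (mk v1) (mk vW)).disc (mk v2))
    rw [Cub.map_disc, Cub.map_disc] at h
    have e1 := H65.map_planeCub P (fs V) (mk v1) (mk vW)
    have e2 := H65.map_planeCub P (sn V) (mk v1) (mk vW)
    change PVal V (((planeCub P (mk v1) (mk vW)).map (fs V)).disc (fs V (mk v2)))
      (((planeCub P (mk v1) (mk vW)).map (sn V)).disc (sn V (mk v2))) at h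
    rw [e1, e2] at h
    exact h
  have hlead' : (planeCub P (0 : M) W').lead 0 ≠ 0 := by
    rw [lead_zero hM1]
    exact mul_ne_zero (by norm_num) (pow_ne_zero 2 ((_root_.map_ne_zero _).2 hQ0))
  have hdeg' := Cub.disc_natDegree _ hlead'
  have hdeg := Cub.disc_natDegree _ hlead
  obtain ⟨p', vp⟩ := finite_of_top hpv (n := 4) hdeg.le (by
    rw [← hdeg', coeff_natDegree, Ne, leadingCoeff_eq_zero]
    intro h0
    rw [h0, natDegree_zero] at hdeg'
    omega) hdisc
  have vr : V.Val r0 (W' - p') := by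
    have e : r0 = W - p0 := by rw [hWd]; ring
    rw [e]
    exact vW.sub vp
  obtain ⟨s₁, s₂, vs, vs', hline⟩ := lim_line v1 v2 v3 vp vr L
  -- `y` is finite
  have hpv2 : PVal V (tPhi P (C l : N[X]) (C al * X + C p0) (C (-be) * X + C r0) X
      (C s * X + C s')) (tPhi P (C 0 : M[X]) (C 0 * X + C p') (C (-1) * X + C (W' - p')) X
      (C s₁ * X + C s₂)) := by
    have v3n := v3.neg
    have h := pval_pr (tPhi P (C (mk v1) : (Pr V)[X]) (C (mk v2) * X + C (mk vp))
      (C (mk v3n) * X + C (mk vr)) X (C (mk vs) * X + C (mk vs')))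
    have e1 := map_tPhi P (Polynomial.mapAlgHom (fs V)) (C (mk v1) : (Pr V)[X])
      (C (mk v2) * X + C (mk vp)) (C (mk v3n) * X + C (mk vr)) X (C (mk vs) * X + C (mk vs'))
    have e2 := map_tPhi P (Polynomial.mapAlgHom (sn V)) (C (mk v1) : (Pr V)[X])
      (C (mk v2) * X + C (mk vp)) (C (mk v3n) * X + C (mk vr)) X (C (mk vs) * X + C (mk vs'))
    simp only [Polynomial.coe_mapAlgHom, Polynomial.map_add, Polynomial.map_mul,
      Polynomial.map_C, Polynomial.map_X, RingHom.coe_coe, fs_mk, sn_mk] at e1 e2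
    rw [e1, e2] at h
    exact h
  obtain ⟨d1, d2⟩ := deg9 P N l al be p0 r0 s s' L.node
  have hc9 : (tPhi P (C 0 : M[X]) (C 0 * X + C p') (C (-1) * X + C (W' - p')) X
      (C s₁ * X + C s₂)).coeff 9 = -2 * algebraMap ℂ M P.P2 := by
    have h1 := hpv2 9
    rw [d2] at h1
    have v0 : V.Val (-2 * (algebraMap ℂ N P.P0 * al ^ 2 - algebraMap ℂ N P.P1 * (al * be) +
        algebraMap ℂ N P.P2 * be ^ 2)) (-2 * (algebraMap ℂ M P.P0 * 0 ^ 2 -
        algebraMap ℂ M P.P1 * (0 * 1) + algebraMap ℂ M P.P2 * 1 ^ 2)) :=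
      val_two.neg.mul ((((val_alg V _).mul (v2.pow 2)).sub ((val_alg V _).mul (v2.mul v3))).add
        ((val_alg V _).mul (v3.pow 2)))
    rw [h1.unique v0]
    ring
  have hB : algebraMap ℂ M P.P2 ≠ 0 := (_root_.map_ne_zero _).2 hc.P2
  have hc9' : (tPhi P (C 0 : M[X]) (C 0 * X + C p') (C (-1) * X + C (W' - p')) X
      (C s₁ * X + C s₂)).coeff 9 ≠ 0 := by
    rw [hc9]
    exact mul_ne_zero (by norm_num) hB
  obtain ⟨y', vy⟩ := finite_of_top hpv2 d1 hc9' (by rw [tPhi_line]; exact hΦ)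
  have hne : tPhi P (C 0 : M[X]) (C 0 * X + C p') (C (-1) * X + C (W' - p')) X
      (C s₁ * X + C s₂) ≠ 0 := by
    intro h
    rw [h, coeff_zero] at hc9'
    exact hc9' rfl
  have vp2 : V.Val (al * y + p0) p' := by
    have h := (v2.mul vy).add vp
    rwa [zero_mul, zero_add] at h
  have vr2 : V.Val (-be * y + r0) (W' - p' - y') := by
    have h := (v3.neg.mul vy).add vr
    convert h using 1
    ring
  have hΦ' : tPhi P 0 p' (W' - p' - y') y' (s₁ * y' + s₂) = 0 := by
    have h := val_tPhi (P := P) v1 vp2 vr2 vy ((vs.mul vy).add vs')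
    rw [hΦ] at h
    exact h.unique V.val_zero
  obtain ⟨k1, k2, k3, k4⟩ := hZ M p' W' s₁ s₂ y' hWtr' (by
    intro z
    rw [← hline z]
    congr 1
    · ring
    · ring) hne hΦ'
  exact ⟨(val_fU vy).ne_zero k1, (val_fV vy).ne_zero k2, (val_E vp2 vy).ne_zero k3,
    (val_h v1 vy).ne_zero k4, (val_h V.val_zero vy).ne_zero k4⟩

/-- **[PT9]** The points of the surface on the general line through a node are good. -/
theorem good9_of (hZ : Z0S P) (hc : NC P) (hM1 : P.M1 = 0) (hQ0 : P.Q0 ≠ 0) (hQ1 : P.Q1 ≠ 0) :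
    Good9 P N := by
  have hchar : CharZero N := charZero_of_injective_algebraMap (algebraMap ℂ N).injective
  intro l al be p r s s' y hl L hgen hΦ
  obtain ⟨h1, h2, h3, h4, h5⟩ := nondeg hZ hc hM1 hQ0 hl L hgen hΦ
  have hB : (s * y + s') ^ 2 = tB P l (al * y + p) (-be * y + r) y := (nline_eval L y).symm
  have hK := Kc_ne hc.P0 h1 h2 h3 h4 hB hΦ
  have hyk := ind_yk hc hM1 hQ0 hQ1 hl L hgen rfl rfl rfl h1 h2 h3 hK h4 h5 hΦ
  exact ⟨h1, h2, h3, hK, h4, GenS.of_eqs hc.P0 hyk (toS_E1 h1 h2 h3 hK)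
    (toS_E2 h1 h2 h3 hK hΦ) (toS_E3 h1 h2 h3 hK h4 hB hΦ)⟩

end a

end Vale.Agent.P297.H721.G9
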