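import Mathlib

/-!
The two leading coefficients of a polynomial expression.
-/

set_option linter.unusedSectionVars false

open Polynomial

namespace Vale.Agent.P297.H721.Z2

variable {N : Type*} [Field N]

/-- `F = a X ^ (d + 1) + b X ^ d + ...` -/
def Top (F : N[X]) (d : ℕ) (a b : N) : Prop :=
  ∃ R : N[X], F = X ^ d * (C a * X + C b) + R ∧ R.degree < d

theorem Top.add {F G : N[X]} {d : ℕ} {a b a' b' : N} (h : Top F d a b) (h' : Top G d a' b') :
    Top (F + G) d (a + a') (b + b') := by
  obtain ⟨R, rfl, hR⟩ := h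
  obtain ⟨R', rfl, hR'⟩ := h'
  refine ⟨R + R', ?_, (degree_add_le _ _).trans_lt (max_lt hR hR')⟩
  rw [C_add, C_add]
  ring

theorem Top.neg {F : N[X]} {d : ℕ} {a b : N} (h : Top F d a b) : Top (-F) d (-a) (-b) := by
  obtain ⟨R, rfl, hR⟩ := h
  refine ⟨-R, ?_, by rwa [degree_neg]⟩
  rw [C_neg, C_neg]
  ring

theorem Top.sub {F G : N[X]} {d : ℕ} {a b a' b' : N} (h : Top F d a b) (h' : Top G d a' b') :
    Top (F - G) d (a - a') (b - b') := by
  rw [sub_eq_add_neg F, sub_eq_add_neg a, sub_eq_add_neg b]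
  exact h.add h'.neg

theorem deg_lin (a b : N) : (C a * X + C b : N[X]).degree ≤ 1 := degree_linear_le

theorem Top.mul {F G : N[X]} {d e : ℕ} {a b a' b' : N} (h : Top F d a b) (h' : Top G e a' b') :
    Top (F * G) (d + e + 1) (a * a') (a * b' + b * a') := by
  obtain ⟨R, rfl, hR⟩ := h
  obtain ⟨R', rfl, hR'⟩ := h'
  refine ⟨C (b * b') * X ^ (d + e) + X ^ d * (C a * X + C b) * R' +
    R * (X ^ e * (C a' * X + C b')) + R * R', ?_, ?_⟩
  · simp only [C_mul, C_add]
    ring
  · have hb : ∀ {m n : ℕ} {A B : N[X]}, A.degree ≤ m → B.degree < n → (A * B).degree < (m + n : ℕ) := by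
      intro m n A B hA hB
      by_cases hB0 : B = 0
      · rw [hB0, mul_zero, degree_zero]
        exact WithBot.bot_lt_coe _
      · by_cases hA0 : A = 0
        · rw [hA0, zero_mul, degree_zero]
          exact WithBot.bot_lt_coe _
        · rw [degree_mul, degree_eq_natDegree hA0, degree_eq_natDegree hB0] at *
          have h1 : A.natDegree ≤ m := by exact_mod_cast hA
          have h2 : B.natDegree < n := by exact_mod_cast hB
          have h3 : A.natDegree + B.natDegree < m + n := by omega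
          exact_mod_cast h3
    have h1 : ∀ (k : ℕ) (x y : N), (X ^ k * (C x * X + C y) : N[X]).degree ≤ (k + 1 : ℕ) := by
      intro k x y
      refine (degree_mul_le _ _).trans ?_
      rw [degree_X_pow]
      have := deg_lin x y
      calc (k : WithBot ℕ) + (C x * X + C y : N[X]).degree ≤ (k : WithBot ℕ) + 1 := by gcongr
        _ = ((k + 1 : ℕ) : WithBot ℕ) := by push_cast; rfl
    have h2 : (C (b * b') * X ^ (d + e) : N[X]).degree < (d + e + 1 : ℕ) :=
      (degree_C_mul_X_pow_le _ _).trans_lt (by exact_mod_cast Nat.lt_succ_self _)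
    have h3 : (X ^ d * (C a * X + C b) * R' : N[X]).degree < (d + e + 1 : ℕ) := by
      have h4 := hb (h1 d a b) hR'
      rwa [show d + 1 + e = d + e + 1 by ring] at h4
    have h5 : (R * (X ^ e * (C a' * X + C b')) : N[X]).degree < (d + e + 1 : ℕ) := by
      rw [mul_comm]
      have h4 := hb (h1 e a' b') hR
      rwa [show e + 1 + d = d + e + 1 by ring] at h4
    have h6 : (R * R' : N[X]).degree < (d + e + 1 : ℕ) := by
      have h4 := hb hR.le hR'
      exact h4.trans (by exact_mod_cast Nat.lt_succ_self _)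
    exact (degree_add_le _ _).trans_lt (max_lt ((degree_add_le _ _).trans_lt
      (max_lt ((degree_add_le _ _).trans_lt (max_lt h2 h3)) h5)) h6)

theorem top_C (c : N) : Top (C c) 0 0 c := ⟨0, by simp, by rw [degree_zero]; exact WithBot.bot_lt_coe _⟩

theorem top_lin (a b : N) : Top (C a * X + C b) 0 a b :=
  ⟨0, by simp, by rw [degree_zero]; exact WithBot.bot_lt_coe _⟩

/-- one degree more -/
theorem Top.up {F : N[X]} {d : ℕ} {a b : N} (h : Top F d a b) : Top F (d + 1) 0 a := by
  obtain ⟨R, rfl, hR⟩ := h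
  refine ⟨C b * X ^ d + R, ?_, ?_⟩
  · rw [C_0]
    ring
  · refine (degree_add_le _ _).trans_lt (max_lt ?_ (hR.trans (by exact_mod_cast Nat.lt_succ_self _)))
    exact (degree_C_mul_X_pow_le _ _).trans_lt (by exact_mod_cast Nat.lt_succ_self _)

/-- multiplication by a constant -/
theorem Top.cmul {F : N[X]} {d : ℕ} {a b : N} (c : N) (h : Top F d a b) :
    Top (C c * F) d (c * a) (c * b) := by
  obtain ⟨R, rfl, hR⟩ := h
  refine ⟨C c * R, ?_, ?_⟩
  · simp only [C_mul]
    ring
  · by_cases hc : c = 0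
    · rw [hc, C_0, zero_mul, degree_zero]
      exact WithBot.bot_lt_coe _
    · rwa [degree_C_mul hc]

theorem Top.natDegree {F : N[X]} {d : ℕ} {b : N} (h : Top F d 0 b) (hb : b ≠ 0) :
    F.natDegree = d ∧ F.leadingCoeff = b := by
  obtain ⟨R, rfl, hR⟩ := h
  have h1 : (X ^ d * (C 0 * X + C b) + R : N[X]) = C b * X ^ d + R := by
    rw [C_0]
    ring
  rw [h1]
  have h2 : (C b * X ^ d : N[X]).degree = d := degree_C_mul_X_pow d hb
  have h3 : (C b * X ^ d + R : N[X]).degree = d := by
    rw [degree_add_eq_left_of_degree_lt (by rwa [h2]), h2]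
  have h4 : (C b * X ^ d + R : N[X]).natDegree = d := natDegree_eq_of_degree_eq_some h3
  refine ⟨h4, ?_⟩
  rw [leadingCoeff, h4, coeff_add, coeff_C_mul_X_pow, if_pos rfl,
    coeff_eq_zero_of_degree_lt hR, add_zero]

end Vale.Agent.P297.H721.Z2
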